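import Mathlib

/-!
# Abstract local contact lemma

`f x y` is a function with partial gradient `G (x, y)`.  At a critical point `(x0, y0)` at which the
partial Hessian in `x` is positive definite, the critical set `G = 0` is parametrised near
`(x0, y0)` by a suitable projection, and every critical point `(x, y)` is such that `x` is the unique
minimiser of `f · y` near `x0`.
-/

namespace Vale.Agent.P121

open scoped Topology NNReal
open Set Metric Module

theorem local_contact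
    {X Y V ι : Type*} [NormedAddCommGroup X] [NormedSpace ℝ X] [FiniteDimensional ℝ X]
    [NormedAddCommGroup Y] [NormedSpace ℝ Y] [FiniteDimensional ℝ Y]
    [NormedAddCommGroup V] [NormedSpace ℝ V] [FiniteDimensional ℝ V] [Finite ι]
    (f : X → Y → ℝ) (G : X × Y → (X →L[ℝ] ℝ)) (L : X × Y →L[ℝ] (X →L[ℝ] ℝ)) (x0 : X) (y0 : Y)
    (hf : ∀ᶠ z in 𝓝 (x0, y0), HasFDerivAt (fun x => f x z.2) (G z) z.1)
    (hG : HasStrictFDerivAt G L (x0, y0)) (hG0 : G (x0, y0) = 0)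
    (m : ℝ) (hm : 0 < m) (hpos : ∀ ξ : X, m * ‖ξ‖ ^ 2 ≤ L (ξ, 0) ξ)
    (P : ι → X × Y →L[ℝ] V) (hdim : finrank ℝ V = finrank ℝ Y)
    (hinj : ∀ i z, P i z = 0 → L z = 0 → z = 0) (i0 : ι) (ε : ℝ) (hε : 0 < ε) :
    ∃ ρ > 0, ρ ≤ ε ∧ ∃ r0 > 0, ∃ K : ℝ≥0, ∀ r, 0 < r → r ≤ r0 → ∃ g : V → X × Y,
      LipschitzOnWith K g (closedBall (P i0 (x0, y0)) r) ∧
      (∀ a ∈ closedBall (P i0 (x0, y0)) r, P i0 (g a) = a ∧ dist (g a) (x0, y0) < ρ) ∧
      (∀ a ∈ closedBall (P i0 (x0, y0)) r, ∀ a' ∈ closedBall (P i0 (x0, y0)) r, ∀ i,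
        dist a a' ≤ K * dist (P i (g a)) (P i (g a'))) ∧
      (∀ a ∈ closedBall (P i0 (x0, y0)) r, ∀ x', dist x' x0 < ρ →
        x' = (g a).1 ∨ f (g a).1 (g a).2 < f x' (g a).2) := by
  classical
  -- antilipschitz constant
  have hCpre : ∀ i, ∃ C : ℝ≥0, 0 < C ∧ ∀ z : X × Y, ‖z‖ ≤ C * ‖(P i z, L z)‖ := by
    intro i
    have hinj' : Function.Injective ((P i).prod L) := by
      rw [injective_iff_map_eq_zero]
      intro z hz
      have h1 : P i z = 0 := congrArg Prod.fst hz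
      have h2 : L z = 0 := congrArg Prod.snd hz
      exact hinj i z h1 h2
    obtain ⟨C, hC0, hC⟩ :=
      (LinearMap.injective_iff_antilipschitz (((P i).prod L : X × Y →L[ℝ] V × (X →L[ℝ] ℝ)) :
        X × Y →ₗ[ℝ] V × (X →L[ℝ] ℝ))).1 hinj'
    refine ⟨C, hC0, fun z => ?_⟩
    have h := hC.le_mul_dist z 0
    rw [dist_zero_right, map_zero, dist_zero_right] at h
    exact h
  choose Cf hCf0 hCf using hCpre
  have := Fintype.ofFinite ι
  obtain ⟨C, hC0, hC⟩ : ∃ C : ℝ≥0, 0 < C ∧ ∀ i z, ‖z‖ ≤ C * ‖(P i z, L z)‖ := by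
    refine ⟨∑ i, Cf i, ?_, ?_⟩
    · exact Finset.sum_pos (fun i _ => hCf0 i) ⟨i0, Finset.mem_univ _⟩
    · intro i z
      refine (hCf i z).trans ?_
      gcongr
      exact_mod_cast Finset.single_le_sum (f := Cf) (fun j _ => (Cf j).2) (Finset.mem_univ i)
  -- choose δ
  obtain ⟨δ, hδ0, hδm, hδC⟩ : ∃ δ : ℝ≥0, 0 < δ ∧ (δ : ℝ) ≤ m / 2 ∧ (C : ℝ) * δ ≤ 1 / 2 := by
    have hC0' : (0 : ℝ) < C := by exact_mod_cast hC0
    have hmin : 0 < min (m / 2) (1 / (2 * (C : ℝ))) := by positivity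
    refine ⟨Real.toNNReal (min (m / 2) (1 / (2 * C))), ?_, ?_, ?_⟩
    · exact Real.toNNReal_pos.2 hmin
    · rw [Real.coe_toNNReal _ hmin.le]; exact min_le_left _ _
    · rw [Real.coe_toNNReal _ hmin.le]
      have h := min_le_right (m / 2) (1 / (2 * (C : ℝ)))
      calc (C : ℝ) * min (m / 2) (1 / (2 * C)) ≤ C * (1 / (2 * C)) := by gcongr
        _ = 1 / 2 := by field_simp
  obtain ⟨s, hs, hsG⟩ := hG.approximates_deriv_on_nhds (c := δ) (Or.inr hδ0)
  obtain ⟨ρ1, hρ1, hball⟩ := Metric.mem_nhds_iff.1 (Filter.inter_mem hs hf)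
  set ρ := min ρ1 ε with hρdef
  have hρ0 : 0 < ρ := lt_min hρ1 hε
  have hρε : ρ ≤ ε := min_le_right _ _
  have hballρ : ball ((x0, y0) : X × Y) ρ ⊆ s ∩ {z | HasFDerivAt (fun x => f x z.2) (G z) z.1} :=
    (ball_subset_ball (min_le_left _ _)).trans hball
  -- two points of the critical set near z0
  have hcrit : ∀ z ∈ ball ((x0, y0) : X × Y) ρ, ∀ z' ∈ ball ((x0, y0) : X × Y) ρ, G z = 0 → G z' = 0 →
      ∀ i, ‖z - z'‖ ≤ 2 * C * ‖P i z - P i z'‖ := by
    intro z hz z' hz' h0 h0' i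
    have h1 := hsG z (hballρ hz).1 z' (hballρ hz').1
    rw [h0, h0', sub_zero, zero_sub, norm_neg] at h1
    have h2 := hC i (z - z')
    have h3 : ‖(P i (z - z'), L (z - z'))‖ ≤ ‖P i (z - z')‖ + ‖L (z - z')‖ := by
      rw [Prod.norm_mk]
      exact max_le (le_add_of_nonneg_right (norm_nonneg _)) (le_add_of_nonneg_left (norm_nonneg _))
    have h4 : ‖z - z'‖ ≤ C * ‖P i (z - z')‖ + C * (δ * ‖z - z'‖) := by
      calc ‖z - z'‖ ≤ C * ‖(P i (z - z'), L (z - z'))‖ := h2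
        _ ≤ C * (‖P i (z - z')‖ + ‖L (z - z')‖) := by gcongr
        _ ≤ C * (‖P i (z - z')‖ + δ * ‖z - z'‖) := by gcongr
        _ = _ := by ring
    have h5 : (C : ℝ) * (δ * ‖z - z'‖) ≤ 1 / 2 * ‖z - z'‖ := by
      rw [← mul_assoc]; gcongr
    rw [map_sub] at h4
    linarith
  -- surjectivity
  have hsurj : ∃ r1 > 0, ∀ a ∈ ball (P i0 (x0, y0)) r1, ∃ z ∈ ball ((x0, y0) : X × Y) ρ,
      P i0 z = a ∧ G z = 0 := by
    have hΨ : HasStrictFDerivAt (fun z => (P i0 z, G z)) ((P i0).prod L) (x0, y0) :=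
      (P i0).hasStrictFDerivAt.prodMk hG
    have hrange : ((P i0).prod L).range = ⊤ := by
      rw [LinearMap.range_eq_top]
      have hinj' : Function.Injective (((P i0).prod L : X × Y →L[ℝ] V × (X →L[ℝ] ℝ)) :
        X × Y →ₗ[ℝ] V × (X →L[ℝ] ℝ)) := by
        rw [injective_iff_map_eq_zero]
        intro z hz
        have h1 : P i0 z = 0 := congrArg Prod.fst hz
        have h2 : L z = 0 := congrArg Prod.snd hz
        exact hinj i0 z h1 h2
      refine (LinearMap.injective_iff_surjective_of_finrank_eq_finrank ?_).1 hinj'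
      rw [finrank_prod, finrank_prod, hdim, add_comm]
      congr 1
      rw [← Subspace.dual_finrank_eq]
      exact (LinearMap.toContinuousLinearMap (𝕜 := ℝ) (E := X) (F' := ℝ)).finrank_eq
    have hmap := hΨ.map_nhds_eq_of_surj hrange
    have hmem : (fun z => (P i0 z, G z)) '' ball ((x0, y0) : X × Y) ρ ∈ 𝓝 (P i0 (x0, y0), G (x0, y0)) := by
      rw [← hmap]
      exact Filter.image_mem_map (ball_mem_nhds _ hρ0)
    obtain ⟨r1, hr1, hr1s⟩ := Metric.mem_nhds_iff.1 hmem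
    refine ⟨r1, hr1, fun a ha => ?_⟩
    have : (a, (0 : X →L[ℝ] ℝ)) ∈ ball (P i0 (x0, y0), G (x0, y0)) r1 := by
      rw [hG0, mem_ball, Prod.dist_eq, max_lt_iff]
      exact ⟨mem_ball.1 ha, by simpa using hr1⟩
    obtain ⟨z, hz, hzeq⟩ := hr1s this
    exact ⟨z, hz, congrArg Prod.fst hzeq, congrArg Prod.snd hzeq⟩
  obtain ⟨r1, hr1, hsurj⟩ := hsurj
  obtain ⟨K, hK1, hK2⟩ : ∃ K : ℝ≥0, 2 * (C : ℝ) ≤ K ∧ ‖P i0‖ * (2 * C) ≤ K := by
    refine ⟨⟨max (2 * C) (‖P i0‖ * (2 * C)), by positivity⟩, le_max_left _ _, le_max_right _ _⟩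
  refine ⟨ρ, hρ0, hρε, r1 / 2, by positivity, K, fun r hr0 hrr => ?_⟩
  have hsub : closedBall (P i0 (x0, y0)) r ⊆ ball (P i0 (x0, y0)) r1 := by
    intro a ha
    rw [mem_closedBall] at ha
    rw [mem_ball]
    linarith
  have hex : ∀ a : V, ∃ z : X × Y, a ∈ closedBall (P i0 (x0, y0)) r →
      z ∈ ball ((x0, y0) : X × Y) ρ ∧ P i0 z = a ∧ G z = 0 := by
    intro a
    by_cases ha : a ∈ closedBall (P i0 (x0, y0)) r
    · obtain ⟨z, hz⟩ := hsurj a (hsub ha)
      exact ⟨z, fun _ => hz⟩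
    · exact ⟨(x0, y0), fun h => absurd h ha⟩
  choose g hg using hex
  refine ⟨g, ?_, ?_, ?_, ?_⟩
  · refine LipschitzOnWith.of_dist_le_mul fun a ha a' ha' => ?_
    have h := hcrit (g a) (hg a ha).1 (g a') (hg a' ha').1 (hg a ha).2.2 (hg a' ha').2.2 i0
    rw [(hg a ha).2.1, (hg a' ha').2.1] at h
    rw [dist_eq_norm, dist_eq_norm]
    refine h.trans ?_
    gcongr
  · intro a ha
    exact ⟨(hg a ha).2.1, (hg a ha).1⟩
  · intro a ha a' ha' i
    have h := hcrit (g a) (hg a ha).1 (g a') (hg a' ha').1 (hg a ha).2.2 (hg a' ha').2.2 i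
    rw [dist_eq_norm, dist_eq_norm]
    calc ‖a - a'‖ = ‖P i0 (g a - g a')‖ := by rw [map_sub, (hg a ha).2.1, (hg a' ha').2.1]
      _ ≤ ‖P i0‖ * ‖g a - g a'‖ := (P i0).le_opNorm _
      _ ≤ ‖P i0‖ * (2 * C * ‖P i (g a) - P i (g a')‖) := by gcongr
      _ = (‖P i0‖ * (2 * C)) * ‖P i (g a) - P i (g a')‖ := by ring
      _ ≤ K * ‖P i (g a) - P i (g a')‖ := by gcongr
  · intro a ha x' hx'
    by_cases hne : x' = (g a).1
    · exact Or.inl hne
    right
    set x := (g a).1 with hx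
    set y := (g a).2 with hy
    have hga : g a = (x, y) := rfl
    have hz := (hg a ha).1
    have hG0' := (hg a ha).2.2
    rw [hga] at hz hG0'
    rw [mem_ball, Prod.dist_eq, max_lt_iff] at hz
    -- the segment
    have hseg : ∀ t ∈ Icc (0 : ℝ) 1, (x + t • (x' - x), y) ∈ ball ((x0, y0) : X × Y) ρ := by
      intro t ht
      rw [mem_ball, Prod.dist_eq, max_lt_iff]
      refine ⟨?_, hz.2⟩
      have hconv := (convex_ball x0 ρ) (x := x) (y := x') (mem_ball.2 hz.1) (mem_ball.2 hx')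
        (a := 1 - t) (b := t) (by linarith [ht.2]) ht.1 (by ring)
      have e : x + t • (x' - x) = (1 - t) • x + t • x' := by
        rw [smul_sub, sub_smul, one_smul]; abel
      show dist (x + t • (x' - x)) x0 < ρ
      rw [e]
      exact mem_ball.1 hconv
    have hderiv : ∀ t ∈ Icc (0 : ℝ) 1,
        HasDerivAt (fun t : ℝ => f (x + t • (x' - x)) y) (G (x + t • (x' - x), y) (x' - x)) t := by
      intro t ht
      have h1 := (hballρ (hseg t ht)).2
      simp only [Set.mem_ofPred_eq] at h1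
      have h2 : HasDerivAt (fun t : ℝ => x + t • (x' - x)) (x' - x) t := by
        simpa using ((hasDerivAt_id t).smul_const (x' - x)).const_add x
      exact h1.comp_hasDerivAt t h2
    obtain ⟨t, ht, htm⟩ := exists_hasDerivAt_eq_slope (fun t : ℝ => f (x + t • (x' - x)) y)
      (fun t => G (x + t • (x' - x), y) (x' - x)) (zero_lt_one)
      (fun t ht => (hderiv t ht).continuousAt.continuousWithinAt)
      (fun t ht => hderiv t ⟨ht.1.le, ht.2.le⟩)
    have hval : f x' y - f x y = G (x + t • (x' - x), y) (x' - x) := by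
      rw [htm]; simp
    have hlow : m / 2 * t * ‖x' - x‖ ^ 2 ≤ G (x + t • (x' - x), y) (x' - x) := by
      have h1 := hsG _ (hballρ (hseg t ⟨ht.1.le, ht.2.le⟩)).1 _ (hballρ (hseg 0 ⟨le_rfl, zero_le_one⟩)).1
      simp only [zero_smul, add_zero] at h1
      rw [hG0', sub_zero] at h1
      have e : (x + t • (x' - x), y) - (x, y) = t • ((x' - x, 0) : X × Y) := by
        simp
      rw [e, map_smul, norm_smul, Real.norm_of_nonneg ht.1.le, Prod.norm_mk, norm_zero,
        max_eq_left (norm_nonneg _)] at h1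
      have h2 : |(G (x + t • (x' - x), y) - t • L (x' - x, 0)) (x' - x)| ≤
          δ * (t * ‖x' - x‖) * ‖x' - x‖ := by
        rw [← Real.norm_eq_abs]
        exact (ContinuousLinearMap.le_opNorm _ _).trans (by gcongr)
      have h3 := (abs_le.1 h2).1
      rw [sub_apply, smul_apply, smul_eq_mul] at h3
      have h4 := hpos (x' - x)
      have h5 : t * (m * ‖x' - x‖ ^ 2) ≤ t * (L (x' - x, 0) (x' - x)) := by
        have := ht.1.le
        gcongr
      have h6 : δ * (t * ‖x' - x‖) * ‖x' - x‖ ≤ m / 2 * (t * ‖x' - x‖) * ‖x' - x‖ := by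
        have := ht.1.le
        gcongr
      nlinarith
    have hpos' : 0 < ‖x' - x‖ := norm_pos_iff.2 (sub_ne_zero.2 hne)
    have : 0 < m / 2 * t * ‖x' - x‖ ^ 2 := by
      have := ht.1
      positivity
    linarith

end Vale.Agent.P121
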