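import Vale.Agent.Lib.P121.Force
import Vale.Agent.Lib.P121.LocalContact

/-!
# The local contact structure for three Coulomb particles near `(0, p, -p)`, `‖p‖ = 1`
-/

namespace Vale.Agent.P121

open scoped RealInnerProductSpace Topology NNReal
open Set Metric

variable {E : Type*} [NormedAddCommGroup E] [InnerProductSpace ℝ E]

/-- potential of the central particle -/
noncomputable def uA (a : E) : ℝ := 3 / 2 - 2 * ‖a‖ ^ 2

/-- potential of the particle near `p` -/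
noncomputable def uB (p b : E) : ℝ := 1 / 2 - 5 / 4 * ⟪p, b - p⟫ - 2 * ‖b - p‖ ^ 2

/-- cost minus the first two potentials -/
noncomputable def ff (p : E) (x : E × E) (c : E) : ℝ :=
  ‖x.1 - x.2‖⁻¹ + ‖x.1 - c‖⁻¹ + ‖x.2 - c‖⁻¹ - uA x.1 - uB p x.2

/-- gradient in the first variable -/
noncomputable def GA (z : (E × E) × E) : E :=
  force (z.1.1 - z.1.2) + force (z.1.1 - z.2) + (4 : ℝ) • z.1.1

/-- gradient in the second variable -/
noncomputable def GB (p : E) (z : (E × E) × E) : E :=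
  -force (z.1.1 - z.1.2) + force (z.1.2 - z.2) + (5 / 4 : ℝ) • p + (4 : ℝ) • (z.1.2 - p)

/-- the pairing `(u, v) ↦ ((α, β) ↦ ⟪u, α⟫ + ⟪v, β⟫)` -/
noncomputable def pairing : E × E →L[ℝ] (E × E →L[ℝ] ℝ) :=
  ((ContinuousLinearMap.compL ℝ (E × E) E ℝ).flip (ContinuousLinearMap.fst ℝ E E) ∘L innerSL ℝ) ∘L
      ContinuousLinearMap.fst ℝ E E +
  ((ContinuousLinearMap.compL ℝ (E × E) E ℝ).flip (ContinuousLinearMap.snd ℝ E E) ∘L innerSL ℝ) ∘L
      ContinuousLinearMap.snd ℝ E E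

lemma pairing_apply (u : E × E) (x : E × E) : pairing u x = ⟪u.1, x.1⟫ + ⟪u.2, x.2⟫ := by
  simp [pairing]
  rfl

/-- The operator `3 p pᵀ - 1`. -/
noncomputable def TT (p : E) : E →L[ℝ] E :=
  (3 : ℝ) • ((innerSL ℝ p).smulRight p) - ContinuousLinearMap.id ℝ E

lemma TT_apply (p v : E) : TT p v = (3 * ⟪p, v⟫) • p - v := by
  simp [TT, smul_smul]

lemma dforce_p {p : E} (hp : ‖p‖ = 1) : dforce p = TT p := by
  ext v
  rw [dforce_apply, TT_apply, hp]; simp

lemma dforce_neg_p {p : E} (hp : ‖p‖ = 1) : dforce (-p) = TT p := by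
  ext v
  rw [dforce_apply, TT_apply, norm_neg, hp]; simp

lemma dforce_two_p {p : E} (hp : ‖p‖ = 1) : dforce ((2 : ℝ) • p) = (1 / 8 : ℝ) • TT p := by
  ext v
  rw [dforce_apply, smul_apply, TT_apply, norm_smul, hp]
  simp [smul_smul, inner_smul_left]
  rw [smul_sub, smul_smul]
  congr 2 <;> ring_nf

/-- derivative of `(GA, GB)` at `((0, p), -p)` -/
noncomputable def DG (p : E) : (E × E) × E →L[ℝ] E × E :=
  let α := (ContinuousLinearMap.fst ℝ E E) ∘L (ContinuousLinearMap.fst ℝ (E × E) E)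
  let β := (ContinuousLinearMap.snd ℝ E E) ∘L (ContinuousLinearMap.fst ℝ (E × E) E)
  let γ := (ContinuousLinearMap.snd ℝ (E × E) E)
  (TT p ∘L (α - β) + TT p ∘L (α - γ) + (4 : ℝ) • α).prod
    (-(TT p ∘L (α - β)) + (1 / 8 : ℝ) • (TT p ∘L (β - γ)) + (4 : ℝ) • β)

lemma DG_apply (p α β γ : E) : DG p ((α, β), γ) =
    (TT p (α - β) + TT p (α - γ) + (4 : ℝ) • α,
      -TT p (α - β) + (1 / 8 : ℝ) • TT p (β - γ) + (4 : ℝ) • β) := by
  simp [DG]

lemma hasStrictFDerivAt_GAB {p : E} (hp : ‖p‖ = 1) :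
    HasStrictFDerivAt (fun z : (E × E) × E => (GA z, GB p z)) (DG p) ((0, p), -p) := by
  have hp0 : p ≠ 0 := by
    intro h; rw [h, norm_zero] at hp; exact zero_ne_one hp
  have hα : HasStrictFDerivAt (fun z : (E × E) × E => z.1.1)
      ((ContinuousLinearMap.fst ℝ E E) ∘L (ContinuousLinearMap.fst ℝ (E × E) E)) ((0, p), -p) :=
    ((ContinuousLinearMap.fst ℝ E E) ∘L (ContinuousLinearMap.fst ℝ (E × E) E)).hasStrictFDerivAt
  have hβ : HasStrictFDerivAt (fun z : (E × E) × E => z.1.2)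
      ((ContinuousLinearMap.snd ℝ E E) ∘L (ContinuousLinearMap.fst ℝ (E × E) E)) ((0, p), -p) :=
    ((ContinuousLinearMap.snd ℝ E E) ∘L (ContinuousLinearMap.fst ℝ (E × E) E)).hasStrictFDerivAt
  have hγ : HasStrictFDerivAt (fun z : (E × E) × E => z.2)
      ((ContinuousLinearMap.snd ℝ (E × E) E)) ((0, p), -p) :=
    (ContinuousLinearMap.snd ℝ (E × E) E).hasStrictFDerivAt
  have h1 : HasStrictFDerivAt (fun z : (E × E) × E => force (z.1.1 - z.1.2)) _ ((0, p), -p) :=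
    HasStrictFDerivAt.comp (g := force) (g' := TT p) ((0, p), -p)
      (by simpa [dforce_neg_p hp] using hasStrictFDerivAt_force (w := (0 : E) - p) (by simpa using hp0))
      (hα.sub hβ)
  have h2 : HasStrictFDerivAt (fun z : (E × E) × E => force (z.1.1 - z.2)) _ ((0, p), -p) :=
    HasStrictFDerivAt.comp (g := force) (g' := TT p) ((0, p), -p)
      (by simpa [dforce_p hp] using hasStrictFDerivAt_force (w := (0 : E) - -p) (by simpa using hp0))
      (hα.sub hγ)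
  have h3 : HasStrictFDerivAt (fun z : (E × E) × E => force (z.1.2 - z.2)) _ ((0, p), -p) :=
    HasStrictFDerivAt.comp (g := force) (g' := (1 / 8 : ℝ) • TT p) ((0, p), -p)
      (by
        have e : p - -p = (2 : ℝ) • p := by rw [sub_neg_eq_add, two_smul]
        have := hasStrictFDerivAt_force (w := p - -p) (by rw [e]; simpa using hp0)
        rw [e, dforce_two_p hp, ← e] at this
        exact this)
      (hβ.sub hγ)
  have hA := (h1.add h2).add (hα.const_smul (4 : ℝ))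
  have hB := ((h1.neg.add h3).add_const ((5 / 4 : ℝ) • p)).add ((hβ.sub_const p).const_smul (4 : ℝ))
  refine ((hA.prodMk hB).congr_fderiv ?_ : HasStrictFDerivAt _ _ _)
  ext z <;> simp [DG]

lemma hasFDerivAt_ff {p : E} {z : (E × E) × E} (h1 : z.1.1 ≠ z.1.2) (h2 : z.1.1 ≠ z.2)
    (h3 : z.1.2 ≠ z.2) :
    HasFDerivAt (fun x => ff p x z.2) (pairing (GA z, GB p z)) z.1 := by
  have hα : HasFDerivAt (fun x : E × E => x.1) (ContinuousLinearMap.fst ℝ E E) z.1 :=
    (ContinuousLinearMap.fst ℝ E E).hasFDerivAt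
  have hβ : HasFDerivAt (fun x : E × E => x.2) (ContinuousLinearMap.snd ℝ E E) z.1 :=
    (ContinuousLinearMap.snd ℝ E E).hasFDerivAt
  have e1 : HasFDerivAt (fun x : E × E => ‖x.1 - x.2‖⁻¹) _ z.1 :=
    HasFDerivAt.comp (g := fun w : E => ‖w‖⁻¹) z.1
      (hasStrictFDerivAt_inv_norm (sub_ne_zero.2 h1)).hasFDerivAt (hα.sub hβ)
  have e2 : HasFDerivAt (fun x : E × E => ‖x.1 - z.2‖⁻¹) _ z.1 :=
    HasFDerivAt.comp (g := fun w : E => ‖w‖⁻¹) z.1
      (hasStrictFDerivAt_inv_norm (sub_ne_zero.2 h2)).hasFDerivAt (hα.sub_const z.2)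
  have e3 : HasFDerivAt (fun x : E × E => ‖x.2 - z.2‖⁻¹) _ z.1 :=
    HasFDerivAt.comp (g := fun w : E => ‖w‖⁻¹) z.1
      (hasStrictFDerivAt_inv_norm (sub_ne_zero.2 h3)).hasFDerivAt (hβ.sub_const z.2)
  have e4 : HasFDerivAt (fun x : E × E => uA x.1) _ z.1 :=
    (((hα.norm_sq).const_mul 2).const_sub (3 / 2))
  have e5a : HasFDerivAt (fun x : E × E => ⟪p, x.2 - p⟫) _ z.1 :=
    HasFDerivAt.comp (g := fun w : E => ⟪p, w⟫) z.1 (innerSL ℝ p).hasFDerivAt (hβ.sub_const p)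
  have e5b : HasFDerivAt (fun x : E × E => ‖x.2 - p‖ ^ 2) _ z.1 :=
    (hβ.sub_const p).norm_sq
  have e5 : HasFDerivAt (fun x : E × E => uB p x.2) _ z.1 :=
    ((e5a.const_mul (5 / 4)).const_sub (1 / 2)).sub (e5b.const_mul 2)
  have h := (((e1.add e2).add e3).sub e4).sub e5
  refine (h.congr_fderiv ?_ : HasFDerivAt (fun x => ff p x z.2) _ z.1)
  refine ContinuousLinearMap.ext fun x => ?_
  rw [pairing_apply]
  simp [GA, GB, inner_add_left, inner_sub_left, inner_smul_left]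
  ring

lemma pairing_pos {p : E} (hp : ‖p‖ = 1) (ξ : E × E) :
    1 * ‖ξ‖ ^ 2 ≤ (pairing ∘L DG p) (ξ, 0) ξ := by
  obtain ⟨α, β⟩ := ξ
  rw [ContinuousLinearMap.comp_apply, DG_apply, pairing_apply]
  have hpp : ⟪p, p⟫ = (1 : ℝ) := by rw [real_inner_self_eq_norm_sq, hp]; norm_num
  have hαα : ⟪α, α⟫ = ‖α‖ ^ 2 := real_inner_self_eq_norm_sq α
  have hββ : ⟪β, β⟫ = ‖β‖ ^ 2 := real_inner_self_eq_norm_sq β
  have hcs : |⟪α, β⟫| ≤ ‖α‖ * ‖β‖ := abs_real_inner_le_norm α β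
  have hcs1 := (abs_le.1 hcs).1
  have hcs2 := (abs_le.1 hcs).2
  have hα := norm_nonneg α
  have hβ := norm_nonneg β
  have hmax : ‖(α, β)‖ ^ 2 ≤ ‖α‖ ^ 2 + ‖β‖ ^ 2 := by
    rw [Prod.norm_mk]
    rcases le_total ‖α‖ ‖β‖ with h | h
    · rw [max_eq_right h]; nlinarith
    · rw [max_eq_left h]; nlinarith
  simp only [TT_apply, sub_zero, inner_add_left, inner_sub_left, inner_sub_right, inner_neg_left,
    inner_smul_left, hαα, hββ, real_inner_comm α β, RCLike.conj_to_real, smul_sub, smul_smul]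
  nlinarith [sq_nonneg (⟪p, α⟫ - ⟪p, β⟫ / 2), sq_nonneg ⟪p, β⟫, sq_nonneg (‖α‖ - ‖β‖)]

lemma TT_eq_zero {p v : E} (hp : ‖p‖ = 1) (h : TT p v = 0) : v = 0 := by
  rw [TT_apply, sub_eq_zero] at h
  have hpp : ⟪p, p⟫ = (1 : ℝ) := by rw [real_inner_self_eq_norm_sq, hp]; norm_num
  have h1 : ⟪p, v⟫ = 0 := by
    have := congrArg (fun w => ⟪p, w⟫) h
    simp only [inner_smul_right, hpp] at this
    linarith
  rw [← h, h1]; simp

lemma pairing_eq_zero {u : E × E} (h : pairing u = 0) : u = 0 := by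
  have h1 := congrArg (fun F => F (u.1, 0)) h
  have h2 := congrArg (fun F => F (0, u.2)) h
  simp only [pairing_apply] at h1 h2
  simp at h1 h2
  exact Prod.ext h1 h2

lemma TT_comb_eq_zero {p v : E} (hp : ‖p‖ = 1) {s t : ℝ} (h : s • TT p v + t • v = 0)
    (h1 : 2 * s + t ≠ 0) (h2 : t - s ≠ 0) : v = 0 := by
  have hpp : ⟪p, p⟫ = (1 : ℝ) := by rw [real_inner_self_eq_norm_sq, hp]; norm_num
  rw [TT_apply] at h
  have h3 : ⟪p, v⟫ = 0 := by
    have := congrArg (fun w => ⟪p, w⟫) h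
    simp only [inner_smul_right, inner_add_right, inner_sub_right, hpp, inner_zero_right] at this
    have h4 : (2 * s + t) * ⟪p, v⟫ = 0 := by linarith
    exact (mul_eq_zero.1 h4).resolve_left h1
  rw [h3] at h
  have h5 : (t - s) • v = 0 := by
    rw [sub_smul, ← h]; simp [sub_eq_add_neg, add_comm]
  exact (smul_eq_zero.1 h5).resolve_left h2

/-- the three projections -/
noncomputable def proj3 : Fin 3 → ((E × E) × E →L[ℝ] E) :=
  ![(ContinuousLinearMap.fst ℝ E E) ∘L (ContinuousLinearMap.fst ℝ (E × E) E),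
    (ContinuousLinearMap.snd ℝ E E) ∘L (ContinuousLinearMap.fst ℝ (E × E) E),
    (ContinuousLinearMap.snd ℝ (E × E) E)]

lemma proj3_inj {p : E} (hp : ‖p‖ = 1) (i : Fin 3) (z : (E × E) × E) (h : proj3 i z = 0)
    (hz : (pairing ∘L DG p) z = 0) : z = 0 := by
  obtain ⟨⟨α, β⟩, γ⟩ := z
  have hz' : DG p ((α, β), γ) = 0 := pairing_eq_zero hz
  rw [DG_apply, Prod.mk_eq_zero] at hz'
  obtain ⟨h1, h2⟩ := hz'
  fin_cases i
  · -- α = 0
    have hα : α = 0 := h
    subst hα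
    have h3 : TT p (β + γ) = 0 := by
      rw [map_add]
      simp only [zero_sub, map_neg, smul_zero, add_zero] at h1
      rw [← neg_eq_zero, ← h1]; abel
    have h4 : γ = -β := by
      have := TT_eq_zero hp h3
      rw [add_comm] at this
      exact eq_neg_of_add_eq_zero_left this
    subst h4
    have h5 : β = 0 := by
      refine TT_comb_eq_zero hp (s := 5 / 4) (t := 4) ?_ (by norm_num) (by norm_num)
      rw [← h2]
      simp only [zero_sub, map_neg, sub_neg_eq_add, map_add, smul_add, neg_neg]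
      module
    subst h5
    simp
  · have hβ : β = 0 := h
    subst hβ
    have h3 : TT p (α + (1 / 8 : ℝ) • γ) = 0 := by
      rw [map_add, map_smul, ← neg_eq_zero, ← h2]
      simp only [sub_zero, zero_sub, map_neg, smul_zero, add_zero, smul_neg]
      module
    have h4 : γ = (-8 : ℝ) • α := by
      have := TT_eq_zero hp h3
      have h6 : (8 : ℝ) • (α + (1 / 8 : ℝ) • γ) = 0 := by rw [this]; simp
      rw [smul_add, smul_smul] at h6
      norm_num at h6
      rw [neg_smul]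
      rw [add_comm] at h6
      exact eq_neg_of_add_eq_zero_left h6
    subst h4
    have h5 : α = 0 := by
      refine TT_comb_eq_zero hp (s := 10) (t := 4) ?_ (by norm_num) (by norm_num)
      rw [← h1]
      simp only [sub_zero, map_sub, map_smul]
      module
    subst h5
    simp
  · have hγ : γ = 0 := h
    subst hγ
    have h3 := pairing_pos hp (α, β)
    rw [hz] at h3
    simp only [one_mul, zero_apply] at h3
    have h4 : ‖(α, β)‖ = 0 := by
      have := sq_nonneg ‖(α, β)‖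
      have h5 : ‖(α, β)‖ ^ 2 = 0 := le_antisymm h3 this
      simpa using h5
    rw [norm_eq_zero] at h4
    rw [h4]; rfl


lemma hf_aux {p : E} (hp : ‖p‖ = 1) : ∀ᶠ z in 𝓝 (((0 : E), p), -p),
      HasFDerivAt (fun x => ff p x z.2) (pairing (GA z, GB p z)) z.1 := by
  have hp0 : p ≠ 0 := by
    intro h; rw [h, norm_zero] at hp; exact zero_ne_one hp
  have hpp : p ≠ -p := by
    intro h
    have : (2 : ℝ) • p = 0 := by rw [two_smul]; nth_rewrite 2 [h]; simp
    exact hp0 (by simpa using this)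
  have c1 : Continuous fun z : (E × E) × E => z.1.1 := by fun_prop
  have c2 : Continuous fun z : (E × E) × E => z.1.2 := by fun_prop
  have c3 : Continuous fun z : (E × E) × E => z.2 := by fun_prop
  have o1 : ∀ᶠ z in 𝓝 (((0 : E), p), -p), z.1.1 ≠ z.1.2 :=
    (isOpen_ne_fun c1 c2).mem_nhds (by simpa using hp0.symm)
  have o2 : ∀ᶠ z in 𝓝 (((0 : E), p), -p), z.1.1 ≠ z.2 :=
    (isOpen_ne_fun c1 c3).mem_nhds (by simpa [eq_comm] using hp0)
  have o3 : ∀ᶠ z in 𝓝 (((0 : E), p), -p), z.1.2 ≠ z.2 :=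
    (isOpen_ne_fun c2 c3).mem_nhds (by simpa using hpp)
  filter_upwards [o1, o2, o3] with z h1 h2 h3
  exact hasFDerivAt_ff h1 h2 h3

lemma hG0_aux {p : E} (hp : ‖p‖ = 1) :
    pairing (GA (((0 : E), p), -p), GB p ((0, p), -p)) = 0 := by
  have e1 : GA (((0 : E), p), -p) = 0 := by
    simp [GA, force, hp]
  have e2 : GB p (((0 : E), p), -p) = 0 := by
    have e : p - -p = (2 : ℝ) • p := by rw [sub_neg_eq_add, two_smul]
    simp only [GB, force, e]
    simp [norm_smul, hp, smul_smul]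
    module
  rw [e1, e2]
  exact map_zero _

lemma hG_aux {p : E} (hp : ‖p‖ = 1) :
    HasStrictFDerivAt (fun z : (E × E) × E => pairing (GA z, GB p z)) (pairing ∘L DG p)
      ((0, p), -p) := by
  have h1 : HasStrictFDerivAt (fun u : E × E => pairing u) (pairing (E := E))
      (GA (((0 : E), p), -p), GB p ((0, p), -p)) := (pairing (E := E)).hasStrictFDerivAt
  have h2 := hasStrictFDerivAt_GAB hp
  exact HasStrictFDerivAt.comp (g := fun u : E × E => pairing u)
    (f := fun z : (E × E) × E => (GA z, GB p z)) ((0, p), -p) h1 h2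

variable [FiniteDimensional ℝ E]

theorem coulomb_local_aux {p : E} (hp : ‖p‖ = 1) {ε : ℝ} (hε : 0 < ε) :
    ∃ ρ > 0, ρ ≤ ε ∧ ∃ r0 > 0, ∃ K : ℝ≥0, ∀ r, 0 < r → r ≤ r0 → ∃ g : E → (E × E) × E,
      ContinuousOn g (closedBall 0 r) ∧
      (∀ a ∈ closedBall (0 : E) r, (g a).1.1 = a ∧ dist (g a) ((0, p), -p) < ρ) ∧
      (∀ a ∈ closedBall (0 : E) r, ∀ a' ∈ closedBall (0 : E) r,
        dist a a' ≤ K * dist (g a).1.2 (g a').1.2 ∧ dist a a' ≤ K * dist (g a).2 (g a').2) ∧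
      (∀ a ∈ closedBall (0 : E) r, ∀ x', dist x' (0, p) < ρ →
        x' = (g a).1 ∨ ff p (g a).1 (g a).2 < ff p x' (g a).2) := by
  obtain ⟨ρ, hρ, hρε, r0, hr0, K, hK⟩ := local_contact (fun x c => ff p x c)
    (fun z : (E × E) × E => pairing (GA z, GB p z)) (pairing ∘L DG p) (0, p) (-p) (hf_aux hp)
    (hG_aux hp) (hG0_aux hp) 1
    one_pos (pairing_pos hp) proj3 rfl (proj3_inj hp) 0 ε hε
  refine ⟨ρ, hρ, hρε, r0, hr0, K, fun r hr hrr => ?_⟩
  obtain ⟨g, hg1, hg2, hg3, hg4⟩ := hK r hr hrr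
  have e0 : proj3 (0 : Fin 3) (((0 : E), p), -p) = 0 := rfl
  rw [e0] at hg1 hg2 hg3 hg4
  exact ⟨g, hg1.continuousOn, hg2, fun a ha a' ha' => ⟨hg3 a ha a' ha' 1, hg3 a ha a' ha' 2⟩, hg4⟩

variable [MeasurableSpace E] [BorelSpace E]

/-- The local contact structure near `(0, p, -p)`. -/
theorem coulomb_local {p : E} (hp : ‖p‖ = 1) {ε : ℝ} (hε : 0 < ε) :
    ∃ ρ > 0, ρ ≤ ε ∧ ∃ r0 > 0, ∃ K : ℝ≥0, ∀ r, 0 < r → r ≤ r0 → ∃ b c : E → E,
      Measurable b ∧ Measurable c ∧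
      ContinuousOn b (closedBall 0 r) ∧ ContinuousOn c (closedBall 0 r) ∧
      (∀ a ∈ closedBall (0 : E) r, dist (b a) p < ρ ∧ dist (c a) (-p) < ρ) ∧
      (∀ a ∈ closedBall (0 : E) r, ∀ a' ∈ closedBall (0 : E) r,
        dist a a' ≤ K * dist (b a) (b a') ∧ dist a a' ≤ K * dist (c a) (c a')) ∧
      (∀ a ∈ closedBall (0 : E) r, ∀ a' b', dist a' 0 < ρ → dist b' p < ρ →
        (a' = a ∧ b' = b a) ∨ ff p (a, b a) (c a) < ff p (a', b') (c a)) := by
  classical
  obtain ⟨ρ, hρ, hρε, r0, hr0, K, hK⟩ := coulomb_local_aux hp hε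
  refine ⟨ρ, hρ, hρε, r0, hr0, K, fun r hr hrr => ?_⟩
  obtain ⟨g, hg1, hg2, hg3, hg4⟩ := hK r hr hrr
  obtain ⟨b, hb⟩ : ∃ b : E → E, b = (closedBall (0 : E) r).piecewise (fun a => (g a).1.2) (fun _ => p) :=
    ⟨_, rfl⟩
  obtain ⟨c, hc⟩ : ∃ c : E → E, c = (closedBall (0 : E) r).piecewise (fun a => (g a).2) (fun _ => -p) :=
    ⟨_, rfl⟩
  have hbe : ∀ a ∈ closedBall (0 : E) r, b a = (g a).1.2 := fun a ha => by
    rw [hb]; exact piecewise_eq_of_mem _ _ _ ha
  have hce : ∀ a ∈ closedBall (0 : E) r, c a = (g a).2 := fun a ha => by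
    rw [hc]; exact piecewise_eq_of_mem _ _ _ ha
  have hgb : ContinuousOn (fun a => (g a).1.2) (closedBall (0 : E) r) :=
    (continuous_snd.comp continuous_fst).comp_continuousOn hg1
  have hgc : ContinuousOn (fun a => (g a).2) (closedBall (0 : E) r) :=
    continuous_snd.comp_continuousOn hg1
  refine ⟨b, c, ?_, ?_, hgb.congr hbe, hgc.congr hce, ?_, ?_, ?_⟩
  · rw [hb]; exact hgb.measurable_piecewise continuousOn_const measurableSet_closedBall
  · rw [hc]; exact hgc.measurable_piecewise continuousOn_const measurableSet_closedBall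
  · intro a ha
    have h := (hg2 a ha).2
    rw [Prod.dist_eq, Prod.dist_eq, max_lt_iff, max_lt_iff] at h
    rw [hbe a ha, hce a ha]
    exact ⟨h.1.2, h.2⟩
  · intro a ha a' ha'
    rw [hbe a ha, hbe a' ha', hce a ha, hce a' ha']
    exact hg3 a ha a' ha'
  · intro a ha a' b' ha' hb'
    have h := hg4 a ha (a', b') (by rw [Prod.dist_eq, max_lt_iff]; exact ⟨ha', hb'⟩)
    have h0 := (hg2 a ha).1
    have e : (g a).1 = (a, b a) := by rw [hbe a ha]; exact Prod.ext h0 rfl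
    rw [e, ← hce a ha] at h
    rcases h with h | h
    · left
      exact ⟨congrArg Prod.fst h, congrArg Prod.snd h⟩
    · right; exact h

end Vale.Agent.P121
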