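import Vale.Agent.Lib.P121.Defs
import Vale.Agent.Lib.P121.CoulombLocal

/-!
# Estimates on clusters
-/

namespace Vale.Agent.P121

open MeasureTheory Set Metric
open scoped ENNReal NNReal RealInnerProductSpace

variable {E : Type*} [NormedAddCommGroup E]

lemma coulombCost_comm12 (x y z : E) : coulombCost x y z = coulombCost y x z := by
  unfold coulombCost
  rw [edist_comm x y, add_assoc, add_assoc, add_comm ((edist x z)⁻¹)]

lemma coulombCost_comm23 (x y z : E) : coulombCost x y z = coulombCost x z y := by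
  unfold coulombCost
  rw [edist_comm y z, add_comm ((edist x y)⁻¹)]

lemma inv_edist_eq {x y : E} (h : x ≠ y) : (edist x y)⁻¹ = ENNReal.ofReal (‖x - y‖⁻¹) := by
  rw [edist_dist, dist_eq_norm, ENNReal.ofReal_inv_of_pos (norm_pos_iff.2 (sub_ne_zero.2 h))]

lemma coulombCost_eq {x y z : E} (h1 : x ≠ y) (h2 : x ≠ z) (h3 : y ≠ z) :
    coulombCost x y z = ENNReal.ofReal (‖x - y‖⁻¹ + ‖x - z‖⁻¹ + ‖y - z‖⁻¹) := by
  unfold coulombCost
  rw [inv_edist_eq h1, inv_edist_eq h2, inv_edist_eq h3, ← ENNReal.ofReal_add, ← ENNReal.ofReal_add]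
  all_goals positivity

/-- lower bound for the interaction -/
lemma le_inv_edist {x y : E} {k : ℝ} (hk : 0 < k) (h : dist x y ≤ k⁻¹) :
    ENNReal.ofReal k ≤ (edist x y)⁻¹ := by
  rw [edist_dist]
  calc ENNReal.ofReal k = (ENNReal.ofReal (k⁻¹))⁻¹ := by
        rw [ENNReal.ofReal_inv_of_pos hk, inv_inv]
    _ ≤ _ := by
        apply ENNReal.inv_le_inv.2
        exact ENNReal.ofReal_le_ofReal h

variable [InnerProductSpace ℝ E]

/-- labels: `0 = A`, `1 = B₀`, `2 = C₀`, `3 = B₁`, `4 = C₁`; reference positions -/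
def pos (p q : E) : Fin 5 → E := ![0, p, -p, q, -q]

/-- upper bounds (times 100) for the potentials -/
def val : Fin 5 → ℕ := ![150, 51, 51, 51, 51]

/-- lower bounds (times 100) for the pair interactions -/
def kap : Fin 5 → Fin 5 → ℕ :=
  ![![1000, 95, 95, 95, 95],
    ![95, 1000, 49, 69, 69],
    ![95, 49, 1000, 69, 69],
    ![95, 69, 69, 1000, 49],
    ![95, 69, 69, 49, 1000]]

/-- the label triples at which contact may happen -/
def contactLabels (i j k : Fin 5) : Prop :=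
  (i = 0 ∧ j = 1 ∧ k = 2) ∨ (i = 0 ∧ j = 2 ∧ k = 1) ∨ (i = 1 ∧ j = 0 ∧ k = 2) ∨
  (i = 2 ∧ j = 0 ∧ k = 1) ∨ (i = 1 ∧ j = 2 ∧ k = 0) ∨ (i = 2 ∧ j = 1 ∧ k = 0) ∨
  (i = 0 ∧ j = 3 ∧ k = 4) ∨ (i = 0 ∧ j = 4 ∧ k = 3) ∨ (i = 3 ∧ j = 0 ∧ k = 4) ∨
  (i = 4 ∧ j = 0 ∧ k = 3) ∨ (i = 3 ∧ j = 4 ∧ k = 0) ∨ (i = 4 ∧ j = 3 ∧ k = 0)

instance (i j k : Fin 5) : Decidable (contactLabels i j k) := by
  unfold contactLabels; infer_instance

lemma labels_check : ∀ i j k : Fin 5, contactLabels i j k ∨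
    val i + val j + val k < kap i j + kap i k + kap j k := by
  decide

lemma dist_pos_bound {p q : E} (hp : ‖p‖ = 1) (hq : ‖q‖ = 1) (hpq : ⟪p, q⟫ = (0 : ℝ)) (i j : Fin 5) :
    dist (pos p q i) (pos p q j) + 2 / 1000 ≤ ((kap i j : ℝ) / 100)⁻¹ := by
  have h2 : √2 ≤ 1.4143 := by
    rw [Real.sqrt_le_left (by norm_num)]; norm_num
  have e1 : ‖p - q‖ = √2 := by
    rw [← Real.sqrt_sq (norm_nonneg (p - q)), norm_sub_sq_real, hp, hq, hpq]; norm_num
  have e2 : ‖p + q‖ = √2 := by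
    rw [← Real.sqrt_sq (norm_nonneg (p + q)), norm_add_sq_real, hp, hq, hpq]; norm_num
  have e3 : ‖p + p‖ = 2 := by rw [← two_smul ℝ p, norm_smul, hp]; norm_num
  have e4 : ‖q + q‖ = 2 := by rw [← two_smul ℝ q, norm_smul, hq]; norm_num
  have e1' : ‖q - p‖ = √2 := by rw [norm_sub_rev, e1]
  have e2' : ‖q + p‖ = √2 := by rw [add_comm, e2]
  have f1 : ‖-p - p‖ = 2 := by rw [← e3, ← norm_neg]; congr 1; abel
  have f2 : ‖-q - q‖ = 2 := by rw [← e4, ← norm_neg]; congr 1; abel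
  have f3 : ‖-p - q‖ = √2 := by rw [← e2, ← norm_neg]; congr 1; abel
  have f4 : ‖-q - p‖ = √2 := by rw [← e2', ← norm_neg]; congr 1; abel
  have f5 : ‖-p + q‖ = √2 := by rw [← e1', ]; congr 1; abel
  have f6 : ‖-q + p‖ = √2 := by rw [← e1, ]; congr 1; abel
  fin_cases i <;> fin_cases j <;>
    simp [pos, kap, dist_eq_norm, hp, hq, e1, e2, e3, e4, e1', e2', f1, f2, f3, f4, f5, f6] <;>
    norm_num <;> linarith

end Vale.Agent.P121
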