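import Mathlib

/-!
# Definitions: the three-marginal Coulomb transport problem
-/

namespace Vale.Agent.P121

open MeasureTheory
open scoped ENNReal

/-- The three-particle Coulomb cost `1/|x-y| + 1/|x-z| + 1/|y-z|`, with values in `[0, ∞]`; it is
`∞` when two of the points coincide. -/
noncomputable def coulombCost {E : Type*} [NormedAddCommGroup E] (x y z : E) : ℝ≥0∞ :=
  (edist x y)⁻¹ + (edist x z)⁻¹ + (edist y z)⁻¹

/-- `π` is a coupling of three copies of `μ`: its three coordinate marginals are all `μ`. -/
def IsCoupling {E : Type*} [NormedAddCommGroup E] [MeasurableSpace E]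
    (μ : Measure E) (π : Measure (E × E × E)) : Prop :=
  π.map (fun p => p.1) = μ ∧ π.map (fun p => p.2.1) = μ ∧ π.map (fun p => p.2.2) = μ

/-- The Kantorovich value: the infimum of the transport cost over all couplings. -/
noncomputable def kantorovichValue {E : Type*} [NormedAddCommGroup E] [MeasurableSpace E]
    (μ : Measure E) : ℝ≥0∞ :=
  ⨅ (π : Measure (E × E × E)) (_ : IsCoupling μ π), ∫⁻ p, coulombCost p.1 p.2.1 p.2.2 ∂π

/-- `(S, T)` is an optimal Monge pair for `μ`: both maps are Borel and push `μ` to itself, and the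
cost of the Monge plan `(Id, S, T)_# μ` equals the Kantorovich value. -/
def IsOptimalMongePair {E : Type*} [NormedAddCommGroup E] [MeasurableSpace E]
    (μ : Measure E) (S T : E → E) : Prop :=
  Measurable S ∧ Measurable T ∧ μ.map S = μ ∧ μ.map T = μ ∧
    ∫⁻ x, coulombCost x (S x) (T x) ∂μ = kantorovichValue μ

end Vale.Agent.P121
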