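import Mathlib

/-!
# Pushforwards under maps with Lipschitz inverse have bounded density
-/

namespace Vale.Agent.P121

open MeasureTheory Set Metric Module
open scoped ENNReal NNReal

theorem map_le_smul {E : Type*} [NormedAddCommGroup E] [InnerProductSpace ℝ E]
    [FiniteDimensional ℝ E] [MeasurableSpace E] [BorelSpace E] (ν : Measure E) [ν.IsAddHaarMeasure]
    {A : Set E} {b : E → E} (hb : Measurable b) {K : ℝ≥0}
    (hK : ∀ a ∈ A, ∀ a' ∈ A, dist a a' ≤ K * dist (b a) (b a')) :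
    ∃ C : ℝ≥0, (ν.restrict A).map b ≤ C • ν := by
  obtain ⟨c, hc⟩ : ∃ c : ℝ≥0, ν = c • (μH[finrank ℝ E] : Measure E) :=
    ⟨_, Measure.isAddLeftInvariant_eq_smul ν (μH[finrank ℝ E] : Measure E)⟩
  refine ⟨K ^ (finrank ℝ E), ?_⟩
  refine Measure.le_iff.2 fun N hN => ?_
  rw [Measure.map_apply hb hN, Measure.restrict_apply (hb hN)]
  have hanti : AntilipschitzWith K (A.domRestrict b) := by
    refine AntilipschitzWith.of_le_mul_dist fun x y => ?_
    exact hK x x.2 y y.2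
  have h1 := hanti.hausdorffMeasure_preimage_le (d := (finrank ℝ E : ℝ)) (by positivity) N
  have h2 : μH[(finrank ℝ E : ℝ)] ((A.domRestrict b) ⁻¹' N) =
      μH[(finrank ℝ E : ℝ)] (b ⁻¹' N ∩ A) := by
    rw [← (isometry_subtype_coe (s := A)).hausdorffMeasure_image (Or.inl (by positivity))]
    congr 1
    ext x
    simp [Set.domRestrict, and_comm]
  rw [h2] at h1
  rw [hc]
  calc (c • (μH[finrank ℝ E] : Measure E)) (b ⁻¹' N ∩ A)
      = (c : ℝ≥0∞) * μH[finrank ℝ E] (b ⁻¹' N ∩ A) := rfl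
    _ ≤ (c : ℝ≥0∞) * ((K : ℝ≥0∞) ^ (finrank ℝ E : ℝ) * μH[finrank ℝ E] N) := by gcongr
    _ = ((K ^ (finrank ℝ E) : ℝ≥0) : ℝ≥0∞) * ((c : ℝ≥0∞) * μH[finrank ℝ E] N) := by
        rw [ENNReal.rpow_natCast, ENNReal.coe_pow]; ring
    _ = _ := rfl

end Vale.Agent.P121
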