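import Vale.Agent.Lib.P121.Main

/-!
# Existence of the counterexample
-/

namespace Vale.Agent.P121

open MeasureTheory Set Metric
open scoped ENNReal NNReal RealInnerProductSpace

theorem exists_counterexample {E : Type*} [NormedAddCommGroup E] [InnerProductSpace ℝ E]
    [FiniteDimensional ℝ E] [MeasurableSpace E] [BorelSpace E] (ν : Measure E)
    [ν.IsAddHaarMeasure] {p q : E} (hp : ‖p‖ = 1) (hq : ‖q‖ = 1) (hpq : ⟪p, q⟫ = (0 : ℝ)) :
    ∃ μ : Measure E, IsProbabilityMeasure μ ∧ (∃ C : ℝ≥0, μ ≤ C • ν) ∧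
      μ (closedBall 0 2)ᶜ = 0 ∧ kantorovichValue μ < ∞ ∧
      ∀ S T : E → E, ¬ IsOptimalMongePair μ S T := by
  obtain ⟨ρ0, hρ0, hρ0', s0, hs0, K0, H0⟩ := coulomb_local (E := E) hp (ε := 1 / 1000) (by norm_num)
  obtain ⟨ρ1, hρ1, hρ1', s1, hs1, K1, H1⟩ := coulomb_local (E := E) hq (ε := 1 / 1000) (by norm_num)
  obtain ⟨r, hr, hrs0, hrs1, hrρ0, hrρ1⟩ : ∃ r : ℝ, 0 < r ∧ r ≤ s0 ∧ r ≤ s1 ∧ r < ρ0 ∧ r < ρ1 := by
    refine ⟨min (min s0 s1) (min (ρ0 / 2) (ρ1 / 2)), by positivity, ?_, ?_, ?_, ?_⟩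
    · exact (min_le_left _ _).trans (min_le_left _ _)
    · exact (min_le_left _ _).trans (min_le_right _ _)
    · exact ((min_le_right _ _).trans (min_le_left _ _)).trans_lt (by linarith)
    · exact ((min_le_right _ _).trans (min_le_right _ _)).trans_lt (by linarith)
  obtain ⟨b0, c0, mb0, mc0, cb0, cc0, near0, anti0, min0⟩ := H0 r hr hrs0
  obtain ⟨b1, c1, mb1, mc1, cb1, cc1, near1, anti1, min1⟩ := H1 r hr hrs1
  have F0 : Family p (closedBall 0 r) b0 c0 K0 ρ0 :=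
    { normp := hp
      small := hρ0'
      nearA := fun a ha => (mem_closedBall.1 ha).trans_lt hrρ0
      measb := mb0
      measc := mc0
      contb := cb0
      contc := cc0
      nearb := fun a ha => (near0 a ha).1
      nearc := fun a ha => (near0 a ha).2
      antib := fun a ha a' ha' => (anti0 a ha a' ha').1
      antic := fun a ha a' ha' => (anti0 a ha a' ha').2
      minim := min0 }
  have F1 : Family q (closedBall 0 r) b1 c1 K1 ρ1 :=
    { normp := hq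
      small := hρ1'
      nearA := fun a ha => (mem_closedBall.1 ha).trans_lt hrρ1
      measb := mb1
      measc := mc1
      contb := cb1
      contc := cc1
      nearb := fun a ha => (near1 a ha).1
      nearc := fun a ha => (near1 a ha).2
      antib := fun a ha a' ha' => (anti1 a ha a' ha').1
      antic := fun a ha a' ha' => (anti1 a ha a' ha').2
      minim := min1 }
  have H : Config p q (closedBall 0 r) b0 c0 b1 c1 K0 K1 ρ0 ρ1 := ⟨F0, F1, hpq⟩
  have hA : IsCompact (closedBall (0 : E) r) := isCompact_closedBall 0 r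
  have hvol0 : ν (closedBall (0 : E) r) ≠ 0 := (measure_closedBall_pos ν 0 hr).ne'
  have hvolt : ν (closedBall (0 : E) r) ≠ ∞ := hA.measure_lt_top.ne
  set A := closedBall (0 : E) r with hAdef
  set κ : Measure E := (ν A)⁻¹ • ν.restrict A with hκdef
  have hκp : IsProbabilityMeasure κ := by
    refine ⟨?_⟩
    rw [hκdef, Measure.smul_apply, Measure.restrict_apply_univ, smul_eq_mul,
      ENNReal.inv_mul_cancel hvol0 hvolt]
  have hκA : κ Aᶜ = 0 := by
    rw [hκdef, Measure.smul_apply, Measure.restrict_apply hA.isClosed.measurableSet.compl]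
    simp
  -- density bounds
  have hdens : ∀ {b : E → E} {K : ℝ≥0}, Measurable b →
      (∀ a ∈ A, ∀ a' ∈ A, dist a a' ≤ K * dist (b a) (b a')) → ∃ C : ℝ≥0, κ.map b ≤ C • ν := by
    intro b K hb hK
    obtain ⟨C, hC⟩ := map_le_smul ν hb hK
    refine ⟨(ν A)⁻¹.toNNReal * C, ?_⟩
    rw [hκdef, Measure.map_smul]
    refine Measure.le_iff.2 fun s hs => ?_
    have h1 := Measure.le_iff.1 hC s hs
    have h2 : ((ν A)⁻¹.toNNReal : ℝ≥0∞) = (ν A)⁻¹ :=
      ENNReal.coe_toNNReal (ENNReal.inv_ne_top.2 hvol0)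
    calc ((ν A)⁻¹ • (ν.restrict A).map b) s = (ν A)⁻¹ * (ν.restrict A).map b s := rfl
      _ ≤ (ν A)⁻¹ * (C • ν) s := by gcongr
      _ = (ν A)⁻¹ * ((C : ℝ≥0∞) * ν s) := rfl
      _ = (((ν A)⁻¹.toNNReal * C : ℝ≥0) : ℝ≥0∞) * ν s := by
          rw [ENNReal.coe_mul, h2, mul_assoc]
      _ = _ := rfl
  obtain ⟨C, hC⟩ := hdens (b := id) (K := 1) measurable_id (by intro a _ a' _; simp)
  obtain ⟨Cb0, hCb0⟩ := hdens mb0 F0.antib
  obtain ⟨Cc0, hCc0⟩ := hdens mc0 F0.antic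
  obtain ⟨Cb1, hCb1⟩ := hdens mb1 F1.antib
  obtain ⟨Cc1, hCc1⟩ := hdens mc1 F1.antic
  rw [Measure.map_id] at hC
  refine ⟨mu κ b0 c0 b1 c1, isProbabilityMeasure_mu mb0 mc0 mb1 mc1, ?_, ?_,
    (H.value_le hA κ hκA).trans_lt (H.lintegral_UU_lt κ), H.no_monge hA κ hκA⟩
  · refine ⟨C + (Cb0 + Cc0 + (Cb1 + Cc1)), Measure.le_iff.2 fun s hs => ?_⟩
    have e := Measure.le_iff.1 hC s hs
    have e1 := Measure.le_iff.1 hCb0 s hs
    have e2 := Measure.le_iff.1 hCc0 s hs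
    have e3 := Measure.le_iff.1 hCb1 s hs
    have e4 := Measure.le_iff.1 hCc1 s hs
    have h3 : (3 : ℝ≥0∞)⁻¹ ≤ 1 := by simp
    have h6 : (6 : ℝ≥0∞)⁻¹ ≤ 1 := by simp
    calc mu κ b0 c0 b1 c1 s = 3⁻¹ * κ s + 6⁻¹ * (κ.map b0 s + κ.map c0 s +
          (κ.map b1 s + κ.map c1 s)) := rfl
      _ ≤ 1 * (C • ν) s + 1 * ((Cb0 • ν) s + (Cc0 • ν) s + ((Cb1 • ν) s + (Cc1 • ν) s)) := by
          gcongr
      _ = (C : ℝ≥0∞) * ν s + ((Cb0 : ℝ≥0∞) * ν s + (Cc0 : ℝ≥0∞) * ν s +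
          ((Cb1 : ℝ≥0∞) * ν s + (Cc1 : ℝ≥0∞) * ν s)) := by
          rw [one_mul, one_mul]; rfl
      _ = ((C + (Cb0 + Cc0 + (Cb1 + Cc1)) : ℝ≥0) : ℝ≥0∞) * ν s := by
          push_cast; ring
      _ = _ := rfl
  · have h := H.ae_support hA κ hκA
    have h2 : ∀ᵐ x ∂(mu κ b0 c0 b1 c1), x ∈ closedBall (0 : E) 2 := by
      filter_upwards [h] with x ⟨i, hi⟩
      have h3 := H.near hi
      have h4 : dist (pos p q i) 0 ≤ 1 := by
        rw [dist_zero_right]
        fin_cases i <;> simp [pos, hp, hq]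
      rw [mem_closedBall]
      have h5 := dist_triangle x (pos p q i) 0
      linarith
    exact h2

end Vale.Agent.P121
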