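import Mathlib

/-!
# Calculus of the Coulomb force

`force w = -w/‖w‖³` is the gradient of `w ↦ 1/‖w‖`.
-/

namespace Vale.Agent.P121

open scoped RealInnerProductSpace Topology

variable {E : Type*} [NormedAddCommGroup E] [InnerProductSpace ℝ E]

/-- The gradient of `w ↦ ‖w‖⁻¹`. -/
noncomputable def force (w : E) : E := -((‖w‖ ^ 3)⁻¹ • w)

/-- The derivative of `force` at `w`. -/
noncomputable def dforce (w : E) : E →L[ℝ] E :=
  (3 * (‖w‖ ^ 5)⁻¹) • ((innerSL ℝ w).smulRight w) - (‖w‖ ^ 3)⁻¹ • ContinuousLinearMap.id ℝ E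

lemma dforce_apply (w v : E) :
    dforce w v = (3 * (‖w‖ ^ 5)⁻¹ * ⟪w, v⟫) • w - (‖w‖ ^ 3)⁻¹ • v := by
  simp [dforce, smul_smul]

lemma hasStrictFDerivAt_norm' {w : E} (hw : w ≠ 0) :
    HasStrictFDerivAt (fun x : E => ‖x‖) (‖w‖⁻¹ • innerSL ℝ w) w := by
  have h1 : HasStrictFDerivAt (fun x : E => ‖x‖ ^ 2) (2 • (innerSL ℝ w)) w :=
    hasStrictFDerivAt_norm_sq w
  have hpos : 0 < ‖w‖ := norm_pos_iff.mpr hw
  have h2 := h1.sqrt (by positivity)
  have e1 : (fun x : E => √(‖x‖ ^ 2)) = fun x : E => ‖x‖ := by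
    funext x; exact Real.sqrt_sq (norm_nonneg x)
  rw [e1] at h2
  convert h2 using 1
  rw [Real.sqrt_sq hpos.le]
  ext v
  simp
  field_simp

lemma hasStrictFDerivAt_inv_norm {w : E} (hw : w ≠ 0) :
    HasStrictFDerivAt (fun x : E => ‖x‖⁻¹) (innerSL ℝ (force w)) w := by
  have hpos : 0 < ‖w‖ := norm_pos_iff.mpr hw
  have h := (hasStrictDerivAt_inv hpos.ne').comp_hasStrictFDerivAt w (hasStrictFDerivAt_norm' hw)
  refine (h.congr_fderiv ?_ : HasStrictFDerivAt (fun x : E => ‖x‖⁻¹) _ w)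
  ext v
  simp [force]
  field_simp

lemma hasStrictFDerivAt_force {w : E} (hw : w ≠ 0) :
    HasStrictFDerivAt (force : E → E) (dforce w) w := by
  have hpos : 0 < ‖w‖ := norm_pos_iff.mpr hw
  have h1 : HasStrictDerivAt (fun t : ℝ => (t ^ 3)⁻¹) (-(3 * (‖w‖ ^ 4)⁻¹)) ‖w‖ := by
    have h := HasStrictDerivAt.comp (h₂ := fun x : ℝ => x⁻¹) (h := fun t : ℝ => t ^ 3) ‖w‖
      (hasStrictDerivAt_inv (pow_pos hpos 3).ne') (hasStrictDerivAt_pow 3 ‖w‖)
    refine (h.congr_deriv ?_ : HasStrictDerivAt (fun t : ℝ => (t ^ 3)⁻¹) _ ‖w‖)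
    field_simp
    push_cast
    ring
  have h2 := h1.comp_hasStrictFDerivAt w (hasStrictFDerivAt_norm' hw)
  have h3 := (h2.smul (hasStrictFDerivAt_id w)).neg
  refine (h3.congr_fderiv ?_ : HasStrictFDerivAt (force : E → E) _ w)
  ext v
  rw [dforce_apply]
  simp [smul_smul]
  rw [sub_eq_add_neg]
  congr 2
  field_simp

end Vale.Agent.P121
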