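import Vale.Agent.Lib.P121.Potential

/-!
# The global dual inequality
-/

namespace Vale.Agent.P121

open MeasureTheory Set Metric
open scoped ENNReal NNReal RealInnerProductSpace

variable {E : Type*} [NormedAddCommGroup E] [InnerProductSpace ℝ E] [MeasurableSpace E]

/-- parametrisations of the five clusters -/
def hh (b0 c0 b1 c1 : E → E) : Fin 5 → E → E := ![id, b0, c0, b1, c1]

/-- the potentials on the five clusters -/
noncomputable def uL (p q : E) (A : Set E) (b0 c0 b1 c1 : E → E) : Fin 5 → E → ℝ :=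
  ![uA, uB p, uC p A b0 c0, uB q, uC q A b1 c1]

/-- the total potential -/
noncomputable def UU (p q : E) (A : Set E) (b0 c0 b1 c1 : E → E) (x : E) : ℝ≥0∞ :=
  ∑ i, (hh b0 c0 b1 c1 i '' A).indicator
    (fun x => ENNReal.ofReal (uL p q A b0 c0 b1 c1 i x)) x

/-- the two families -/
structure Config (p q : E) (A : Set E) (b0 c0 b1 c1 : E → E) (K0 K1 : ℝ≥0) (ρ0 ρ1 : ℝ) : Prop where
  F0 : Family p A b0 c0 K0 ρ0
  F1 : Family q A b1 c1 K1 ρ1
  orth : ⟪p, q⟫ = (0 : ℝ)

lemma kap_pos : ∀ i j : Fin 5, 0 < kap i j := by decide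

namespace Config

variable {p q : E} {A : Set E} {b0 c0 b1 c1 : E → E} {K0 K1 : ℝ≥0} {ρ0 ρ1 : ℝ}

lemma near (H : Config p q A b0 c0 b1 c1 K0 K1 ρ0 ρ1) {i : Fin 5} {x : E}
    (hx : x ∈ hh b0 c0 b1 c1 i '' A) : dist x (pos p q i) < 1 / 1000 := by
  obtain ⟨a, ha, rfl⟩ := hx
  have s0 := H.F0.small
  have s1 := H.F1.small
  fin_cases i
  · exact (H.F0.nearA a ha).trans_le s0
  · exact (H.F0.nearb a ha).trans_le s0
  · exact (H.F0.nearc a ha).trans_le s0
  · exact (H.F1.nearb a ha).trans_le s1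
  · exact (H.F1.nearc a ha).trans_le s1

lemma sep (H : Config p q A b0 c0 b1 c1 K0 K1 ρ0 ρ1) {i j : Fin 5} (hij : i ≠ j) :
    1 ≤ dist (pos p q i) (pos p q j) := by
  have hp := H.F0.normp
  have hq := H.F1.normp
  have hpq := H.orth
  have h2 : 1 ≤ √2 := by
    rw [Real.one_le_sqrt]; norm_num
  have e1 : ‖p - q‖ = √2 := by
    rw [← Real.sqrt_sq (norm_nonneg (p - q)), norm_sub_sq_real, hp, hq, hpq]; norm_num
  have e2 : ‖p + q‖ = √2 := by
    rw [← Real.sqrt_sq (norm_nonneg (p + q)), norm_add_sq_real, hp, hq, hpq]; norm_num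
  have e3 : ‖p + p‖ = 2 := by rw [← two_smul ℝ p, norm_smul, hp]; norm_num
  have e4 : ‖q + q‖ = 2 := by rw [← two_smul ℝ q, norm_smul, hq]; norm_num
  have e1' : ‖q - p‖ = √2 := by rw [norm_sub_rev, e1]
  have e2' : ‖q + p‖ = √2 := by rw [add_comm, e2]
  have f1 : ‖-p - p‖ = 2 := by rw [← e3, ← norm_neg]; congr 1; abel
  have f2 : ‖-q - q‖ = 2 := by rw [← e4, ← norm_neg]; congr 1; abel
  have f3 : ‖-p - q‖ = √2 := by rw [← e2, ← norm_neg]; congr 1; abel
  have f4 : ‖-q - p‖ = √2 := by rw [← e2', ← norm_neg]; congr 1; abel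
  have f5 : ‖-p + q‖ = √2 := by rw [← e1', ]; congr 1; abel
  have f6 : ‖-q + p‖ = √2 := by rw [← e1, ]; congr 1; abel
  fin_cases i <;> fin_cases j <;>
    first
    | exact absurd rfl hij
    | simp [pos, dist_eq_norm, hp, hq, e1, e2, e3, e4, e1', e2', f1, f2, f3, f4, f5, f6]

lemma disj (H : Config p q A b0 c0 b1 c1 K0 K1 ρ0 ρ1) {i j : Fin 5} {x : E}
    (hx : x ∈ hh b0 c0 b1 c1 i '' A) (hx' : x ∈ hh b0 c0 b1 c1 j '' A) : i = j := by
  by_contra hij
  have h1 := H.near hx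
  have h2 := H.near hx'
  have h3 := H.sep hij
  have h4 := dist_triangle_left (pos p q i) (pos p q j) x
  linarith

lemma UU_eq (H : Config p q A b0 c0 b1 c1 K0 K1 ρ0 ρ1) {i : Fin 5} {x : E}
    (hx : x ∈ hh b0 c0 b1 c1 i '' A) :
    UU p q A b0 c0 b1 c1 x = ENNReal.ofReal (uL p q A b0 c0 b1 c1 i x) := by
  unfold UU
  rw [Finset.sum_eq_single i]
  · rw [indicator_of_mem hx]
  · intro j _ hj
    rw [indicator_of_notMem]
    intro hx'
    exact hj (H.disj hx' hx)
  · simp

lemma uL_bounds (H : Config p q A b0 c0 b1 c1 K0 K1 ρ0 ρ1) {i : Fin 5} {x : E}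
    (hx : x ∈ hh b0 c0 b1 c1 i '' A) :
    0 ≤ uL p q A b0 c0 b1 c1 i x ∧ uL p q A b0 c0 b1 c1 i x ≤ (val i : ℝ) / 100 := by
  have hn := H.near hx
  obtain ⟨a, ha, rfl⟩ := hx
  fin_cases i
  · have h := uA_bounds hn
    simp only [uL, val]
    exact ⟨by exact le_trans (by norm_num) h.1, by simpa using h.2⟩
  · have h := uB_bounds H.F0.normp hn
    simp only [uL, val]
    exact ⟨by exact le_trans (by norm_num) h.1, by simpa using h.2⟩
  · have h := H.F0.uC_bounds ha
    simp only [uL, val]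
    exact ⟨h.1, by simpa [hh] using h.2⟩
  · have h := uB_bounds H.F1.normp hn
    simp only [uL, val]
    exact ⟨by exact le_trans (by norm_num) h.1, by simpa using h.2⟩
  · have h := H.F1.uC_bounds ha
    simp only [uL, val]
    exact ⟨h.1, by simpa [hh] using h.2⟩

/-- The noncontact label triples have strict inequality. -/
lemma noncontact (H : Config p q A b0 c0 b1 c1 K0 K1 ρ0 ρ1) {i j k : Fin 5} {x y z : E}
    (hx : x ∈ hh b0 c0 b1 c1 i '' A) (hy : y ∈ hh b0 c0 b1 c1 j '' A)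
    (hz : z ∈ hh b0 c0 b1 c1 k '' A) (hc : ¬ contactLabels i j k) :
    UU p q A b0 c0 b1 c1 x + UU p q A b0 c0 b1 c1 y + UU p q A b0 c0 b1 c1 z <
      coulombCost x y z := by
  have hcheck := (labels_check i j k).resolve_left hc
  have hpair : ∀ {i j : Fin 5} {x y : E}, x ∈ hh b0 c0 b1 c1 i '' A → y ∈ hh b0 c0 b1 c1 j '' A →
      ENNReal.ofReal ((kap i j : ℝ) / 100) ≤ (edist x y)⁻¹ := by
    intro i j x y hx hy
    apply le_inv_edist
    · have := kap_pos i j
      positivity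
    · have h1 := H.near hx
      have h2 := H.near hy
      have h3 := dist_pos_bound H.F0.normp H.F1.normp H.orth i j
      have h4 := dist_triangle4 x (pos p q i) (pos p q j) y
      rw [dist_comm (pos p q j) y] at h4
      linarith
  have hx1 := H.uL_bounds hx
  have hy1 := H.uL_bounds hy
  have hz1 := H.uL_bounds hz
  rw [H.UU_eq hx, H.UU_eq hy, H.UU_eq hz, ← ENNReal.ofReal_add hx1.1 hy1.1,
    ← ENNReal.ofReal_add (add_nonneg hx1.1 hy1.1) hz1.1]
  have hlow : ENNReal.ofReal ((kap i j : ℝ) / 100 + (kap i k : ℝ) / 100 + (kap j k : ℝ) / 100) ≤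
      coulombCost x y z := by
    rw [ENNReal.ofReal_add (by positivity) (by positivity),
      ENNReal.ofReal_add (by positivity) (by positivity)]
    unfold coulombCost
    gcongr
    · exact hpair hx hy
    · exact hpair hx hz
    · exact hpair hy hz
  refine lt_of_lt_of_le ?_ hlow
  rw [ENNReal.ofReal_lt_ofReal_iff]
  · have : ((val i + val j + val k : ℕ) : ℝ) < ((kap i j + kap i k + kap j k : ℕ) : ℝ) := by
      exact_mod_cast hcheck
    push_cast at this
    linarith
  · have := kap_pos i j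
    positivity

/-- contact of the ordered triple for the first family -/
lemma contact0 (H : Config p q A b0 c0 b1 c1 K0 K1 ρ0 ρ1) {x y z : E}
    (hx : x ∈ hh b0 c0 b1 c1 0 '' A) (hy : y ∈ hh b0 c0 b1 c1 1 '' A)
    (hz : z ∈ hh b0 c0 b1 c1 2 '' A) :
    UU p q A b0 c0 b1 c1 x + UU p q A b0 c0 b1 c1 y + UU p q A b0 c0 b1 c1 z ≤
      coulombCost x y z ∧
    (coulombCost x y z ≤ UU p q A b0 c0 b1 c1 x + UU p q A b0 c0 b1 c1 y + UU p q A b0 c0 b1 c1 z →
      y = b0 x ∧ z = c0 x) := by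
  rw [H.UU_eq hx, H.UU_eq hy, H.UU_eq hz]
  have hx' : x ∈ A := by simpa [hh] using hx
  exact H.F0.contact_le hx' hy hz

lemma contact1 (H : Config p q A b0 c0 b1 c1 K0 K1 ρ0 ρ1) {x y z : E}
    (hx : x ∈ hh b0 c0 b1 c1 0 '' A) (hy : y ∈ hh b0 c0 b1 c1 3 '' A)
    (hz : z ∈ hh b0 c0 b1 c1 4 '' A) :
    UU p q A b0 c0 b1 c1 x + UU p q A b0 c0 b1 c1 y + UU p q A b0 c0 b1 c1 z ≤
      coulombCost x y z ∧
    (coulombCost x y z ≤ UU p q A b0 c0 b1 c1 x + UU p q A b0 c0 b1 c1 y + UU p q A b0 c0 b1 c1 z →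
      y = b1 x ∧ z = c1 x) := by
  rw [H.UU_eq hx, H.UU_eq hy, H.UU_eq hz]
  have hx' : x ∈ A := by simpa [hh] using hx
  exact H.F1.contact_le hx' hy hz

/-- The dual inequality. -/
lemma key (H : Config p q A b0 c0 b1 c1 K0 K1 ρ0 ρ1) {i j k : Fin 5} {x y z : E}
    (hx : x ∈ hh b0 c0 b1 c1 i '' A) (hy : y ∈ hh b0 c0 b1 c1 j '' A)
    (hz : z ∈ hh b0 c0 b1 c1 k '' A) :
    UU p q A b0 c0 b1 c1 x + UU p q A b0 c0 b1 c1 y + UU p q A b0 c0 b1 c1 z ≤
      coulombCost x y z := by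
  by_cases hc : contactLabels i j k
  · rcases hc with h | h | h | h | h | h | h | h | h | h | h | h <;> obtain ⟨rfl, rfl, rfl⟩ := h
    · exact (H.contact0 hx hy hz).1
    · rw [coulombCost_comm23, add_right_comm]; exact (H.contact0 hx hz hy).1
    · rw [coulombCost_comm12, add_comm (UU p q A b0 c0 b1 c1 x)]; exact (H.contact0 hy hx hz).1
    · rw [coulombCost_comm12, coulombCost_comm23, add_rotate]; exact (H.contact0 hy hz hx).1
    · rw [coulombCost_comm23, coulombCost_comm12, ← add_rotate]; exact (H.contact0 hz hx hy).1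
    · rw [coulombCost_comm12, coulombCost_comm23, coulombCost_comm12, ← add_rotate, add_right_comm]
      exact (H.contact0 hz hy hx).1
    · exact (H.contact1 hx hy hz).1
    · rw [coulombCost_comm23, add_right_comm]; exact (H.contact1 hx hz hy).1
    · rw [coulombCost_comm12, add_comm (UU p q A b0 c0 b1 c1 x)]; exact (H.contact1 hy hx hz).1
    · rw [coulombCost_comm12, coulombCost_comm23, add_rotate]; exact (H.contact1 hy hz hx).1
    · rw [coulombCost_comm23, coulombCost_comm12, ← add_rotate]; exact (H.contact1 hz hx hy).1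
    · rw [coulombCost_comm12, coulombCost_comm23, coulombCost_comm12, ← add_rotate, add_right_comm]
      exact (H.contact1 hz hy hx).1
  · exact (H.noncontact hx hy hz hc).le

/-- The equality case when the first point lies in the central cluster. -/
lemma key_eq (H : Config p q A b0 c0 b1 c1 K0 K1 ρ0 ρ1) {j k : Fin 5} {x y z : E}
    (hx : x ∈ A) (hy : y ∈ hh b0 c0 b1 c1 j '' A)
    (hz : z ∈ hh b0 c0 b1 c1 k '' A)
    (hle : coulombCost x y z ≤
      UU p q A b0 c0 b1 c1 x + UU p q A b0 c0 b1 c1 y + UU p q A b0 c0 b1 c1 z) :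
    y = c0 x ∨ y = c1 x ∨ z = c0 x ∨ z = c1 x := by
  have hx0 : x ∈ hh b0 c0 b1 c1 0 '' A := ⟨x, hx, rfl⟩
  by_cases hc : contactLabels 0 j k
  · rcases hc with h | h | h | h | h | h | h | h | h | h | h | h <;> obtain ⟨h0, rfl, rfl⟩ := h
    · exact Or.inr (Or.inr (Or.inl ((H.contact0 hx0 hy hz).2 hle).2))
    · rw [coulombCost_comm23, add_right_comm] at hle
      exact Or.inl ((H.contact0 hx0 hz hy).2 hle).2
    · exact absurd h0 (by decide)
    · exact absurd h0 (by decide)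
    · exact absurd h0 (by decide)
    · exact absurd h0 (by decide)
    · exact Or.inr (Or.inr (Or.inr ((H.contact1 hx0 hy hz).2 hle).2))
    · rw [coulombCost_comm23, add_right_comm] at hle
      exact Or.inr (Or.inl ((H.contact1 hx0 hz hy).2 hle).2)
    · exact absurd h0 (by decide)
    · exact absurd h0 (by decide)
    · exact absurd h0 (by decide)
    · exact absurd h0 (by decide)
  · exact absurd hle (not_le.2 (H.noncontact hx0 hy hz hc))

end Config

end Vale.Agent.P121
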