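import Vale.Agent.Lib.P121.Key
import Vale.Agent.Lib.P121.Density

/-!
# The measure and the main argument
-/

namespace Vale.Agent.P121

open MeasureTheory Set Metric
open scoped ENNReal NNReal RealInnerProductSpace

section

variable {E : Type*} [NormedAddCommGroup E] [MeasurableSpace E]

/-- The marginal: one third of the mass in the central cluster, one sixth in each of the other
four clusters. -/
noncomputable def mu (κ : Measure E) (b0 c0 b1 c1 : E → E) : Measure E :=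
  (3 : ℝ≥0∞)⁻¹ • κ + (6 : ℝ≥0∞)⁻¹ • (κ.map b0 + κ.map c0 + (κ.map b1 + κ.map c1))

/-- cyclically symmetrised contact plan of one family -/
noncomputable def plan (κ : Measure E) (b c : E → E) : Measure (E × E × E) :=
  κ.map (fun a => (a, b a, c a)) + κ.map (fun a => (c a, a, b a)) + κ.map (fun a => (b a, c a, a))

lemma three_inv : (3 : ℝ≥0∞)⁻¹ = (6 : ℝ≥0∞)⁻¹ + (6 : ℝ≥0∞)⁻¹ := by
  rw [← two_mul, show (6 : ℝ≥0∞) = 2 * 3 by norm_num, ENNReal.mul_inv (by simp) (by simp),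
    ← mul_assoc, ENNReal.mul_inv_cancel (by simp) (by simp), one_mul]

variable {κ : Measure E} {b c : E → E}

omit [NormedAddCommGroup E] in
lemma plan_fst (hb : Measurable b) (hc : Measurable c) :
    (plan κ b c).map (fun p => p.1) = κ + κ.map c + κ.map b := by
  have m1 : Measurable (fun p : E × E × E => p.1) := measurable_fst
  unfold plan
  rw [Measure.map_add _ _ m1, Measure.map_add _ _ m1, Measure.map_map m1 (by fun_prop),
    Measure.map_map m1 (by fun_prop), Measure.map_map m1 (by fun_prop)]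
  congr 1
  congr 1
  exact Measure.map_id

omit [NormedAddCommGroup E] in
lemma plan_mid (hb : Measurable b) (hc : Measurable c) :
    (plan κ b c).map (fun p => p.2.1) = κ.map b + κ + κ.map c := by
  have m1 : Measurable (fun p : E × E × E => p.2.1) := measurable_fst.comp measurable_snd
  unfold plan
  rw [Measure.map_add _ _ m1, Measure.map_add _ _ m1, Measure.map_map m1 (by fun_prop),
    Measure.map_map m1 (by fun_prop), Measure.map_map m1 (by fun_prop)]
  congr 1
  congr 1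
  exact Measure.map_id

omit [NormedAddCommGroup E] in
lemma plan_last (hb : Measurable b) (hc : Measurable c) :
    (plan κ b c).map (fun p => p.2.2) = κ.map c + κ.map b + κ := by
  have m1 : Measurable (fun p : E × E × E => p.2.2) := measurable_snd.comp measurable_snd
  unfold plan
  rw [Measure.map_add _ _ m1, Measure.map_add _ _ m1, Measure.map_map m1 (by fun_prop),
    Measure.map_map m1 (by fun_prop), Measure.map_map m1 (by fun_prop)]
  congr 1
  exact Measure.map_id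

lemma isCoupling_plan {b0 c0 b1 c1 : E → E} (hb0 : Measurable b0)
    (hc0 : Measurable c0) (hb1 : Measurable b1) (hc1 : Measurable c1) :
    IsCoupling (mu κ b0 c0 b1 c1) ((6 : ℝ≥0∞)⁻¹ • (plan κ b0 c0 + plan κ b1 c1)) := by
  have m1 : Measurable (fun p : E × E × E => p.1) := measurable_fst
  have m2 : Measurable (fun p : E × E × E => p.2.1) := measurable_fst.comp measurable_snd
  have m3 : Measurable (fun p : E × E × E => p.2.2) := measurable_snd.comp measurable_snd
  refine ⟨?_, ?_, ?_⟩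
  · rw [Measure.map_smul, Measure.map_add _ _ m1, plan_fst hb0 hc0, plan_fst hb1 hc1]
    unfold mu
    ext s hs
    simp only [Measure.smul_apply, Measure.add_apply, smul_eq_mul, three_inv]
    ring
  · rw [Measure.map_smul, Measure.map_add _ _ m2, plan_mid hb0 hc0, plan_mid hb1 hc1]
    unfold mu
    ext s hs
    simp only [Measure.smul_apply, Measure.add_apply, smul_eq_mul, three_inv]
    ring
  · rw [Measure.map_smul, Measure.map_add _ _ m3, plan_last hb0 hc0, plan_last hb1 hc1]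
    unfold mu
    ext s hs
    simp only [Measure.smul_apply, Measure.add_apply, smul_eq_mul, three_inv]
    ring

omit [NormedAddCommGroup E] in
lemma isProbabilityMeasure_mu [IsProbabilityMeasure κ] {b0 c0 b1 c1 : E → E} (hb0 : Measurable b0)
    (hc0 : Measurable c0) (hb1 : Measurable b1) (hc1 : Measurable c1) :
    IsProbabilityMeasure (mu κ b0 c0 b1 c1) := by
  refine ⟨?_⟩
  unfold mu
  simp only [Measure.add_apply, Measure.smul_apply, smul_eq_mul, measure_univ,
    Measure.map_apply hb0 MeasurableSet.univ, Measure.map_apply hc0 MeasurableSet.univ,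
    Measure.map_apply hb1 MeasurableSet.univ, Measure.map_apply hc1 MeasurableSet.univ,
    preimage_univ]
  rw [three_inv, mul_one, show (1 : ℝ≥0∞) + 1 + (1 + 1) = 4 by norm_num,
    show (6 : ℝ≥0∞)⁻¹ + 6⁻¹ + 6⁻¹ * 4 = 6 * 6⁻¹ by ring]
  exact ENNReal.mul_inv_cancel (by simp) (by simp)

end

section

variable {E : Type*} [NormedAddCommGroup E] [InnerProductSpace ℝ E] [FiniteDimensional ℝ E]
  [MeasurableSpace E] [BorelSpace E]
  {p q : E} {A : Set E} {b0 c0 b1 c1 : E → E} {K0 K1 : ℝ≥0} {ρ0 ρ1 : ℝ}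

namespace Family

variable {b c : E → E} {K : ℝ≥0} {ρ : ℝ}

omit [FiniteDimensional ℝ E] [BorelSpace E] in
lemma continuousOn_uC (F : Family p A b c K ρ) : ContinuousOn (uC p A b c) (c '' A) := by
  have hinv : ContinuousOn (Function.invFunOn c A) (c '' A) := by
    have : LipschitzOnWith K (Function.invFunOn c A) (c '' A) := by
      refine LipschitzOnWith.of_dist_le_mul ?_
      rintro _ ⟨a, ha, rfl⟩ _ ⟨a', ha', rfl⟩
      rw [F.inv_c ha, F.inv_c ha']
      exact F.antic a ha a' ha'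
    exact this.continuousOn
  have hmaps : MapsTo (Function.invFunOn c A) (c '' A) A := by
    rintro _ ⟨a, ha, rfl⟩
    rw [F.inv_c ha]; exact ha
  have hb : ContinuousOn (fun x => b (Function.invFunOn c A x)) (c '' A) :=
    F.contb.comp hinv hmaps
  have hdist : ∀ x ∈ c '' A, Function.invFunOn c A x ≠ b (Function.invFunOn c A x) ∧
      Function.invFunOn c A x ≠ x ∧ b (Function.invFunOn c A x) ≠ x := by
    rintro _ ⟨a, ha, rfl⟩
    rw [F.inv_c ha]
    obtain ⟨h1, h2, h3⟩ := F.distances (F.nearA a ha) (F.nearb a ha) (F.nearc a ha)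
    refine ⟨?_, ?_, ?_⟩
    · exact fun h => by rw [sub_eq_zero.2 h, norm_zero] at h1; norm_num at h1
    · exact fun h => by rw [sub_eq_zero.2 h, norm_zero] at h2; norm_num at h2
    · exact fun h => by rw [sub_eq_zero.2 h, norm_zero] at h3; norm_num at h3
  have i1 : ContinuousOn (fun x => ‖Function.invFunOn c A x - b (Function.invFunOn c A x)‖⁻¹)
      (c '' A) := (hinv.sub hb).norm.inv₀ fun x hx => by
        rw [norm_ne_zero_iff]; exact sub_ne_zero.2 (hdist x hx).1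
  have i2 : ContinuousOn (fun x => ‖Function.invFunOn c A x - x‖⁻¹)
      (c '' A) := (hinv.sub continuousOn_id).norm.inv₀ fun x hx => by
        rw [norm_ne_zero_iff]; exact sub_ne_zero.2 (hdist x hx).2.1
  have i3 : ContinuousOn (fun x => ‖b (Function.invFunOn c A x) - x‖⁻¹)
      (c '' A) := (hb.sub continuousOn_id).norm.inv₀ fun x hx => by
        rw [norm_ne_zero_iff]; exact sub_ne_zero.2 (hdist x hx).2.2
  have i4 : ContinuousOn (fun x => uA (Function.invFunOn c A x)) (c '' A) := by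
    unfold uA
    exact continuousOn_const.sub (continuousOn_const.mul (hinv.norm.pow 2))
  have i5 : ContinuousOn (fun x => uB p (b (Function.invFunOn c A x))) (c '' A) := by
    unfold uB
    exact (continuousOn_const.sub (continuousOn_const.mul
      (continuousOn_const.inner (hb.sub continuousOn_const)))).sub
        (continuousOn_const.mul ((hb.sub continuousOn_const).norm.pow 2))
  exact (((i1.add i2).add i3).sub i4).sub i5

omit [FiniteDimensional ℝ E] [BorelSpace E] in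
lemma contact_eq (F : Family p A b c K ρ) {a : E} (ha : a ∈ A) :
    coulombCost a (b a) (c a) = ENNReal.ofReal (uA a) + ENNReal.ofReal (uB p (b a)) +
      ENNReal.ofReal (uC p A b c (c a)) := by
  have hx' := F.nearA a ha
  have hy' := F.nearb a ha
  have hz' := F.nearc a ha
  obtain ⟨h1, h2, h3⟩ := F.distances hx' hy' hz'
  have hA := uA_bounds (hx'.trans_le F.small)
  have hB := uB_bounds F.normp (hy'.trans_le F.small)
  have hC := F.uC_bounds ha
  have n1 : a ≠ b a := fun h => by rw [sub_eq_zero.2 h, norm_zero] at h1; norm_num at h1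
  have n2 : a ≠ c a := fun h => by rw [sub_eq_zero.2 h, norm_zero] at h2; norm_num at h2
  have n3 : b a ≠ c a := fun h => by rw [sub_eq_zero.2 h, norm_zero] at h3; norm_num at h3
  rw [coulombCost_eq n1 n2 n3, ← ENNReal.ofReal_add (by linarith [hA.1]) (by linarith [hB.1]),
    ← ENNReal.ofReal_add (by linarith [hA.1, hB.1]) hC.1, F.uC_eq ha]
  congr 1
  unfold ff
  simp only
  ring

end Family

namespace Config

omit [FiniteDimensional ℝ E] in
lemma measurable_UU (H : Config p q A b0 c0 b1 c1 K0 K1 ρ0 ρ1) (hA : IsCompact A) :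
    Measurable (UU p q A b0 c0 b1 c1) := by
  classical
  unfold UU
  refine Finset.measurable_sum _ fun i _ => ?_
  have hcont : ContinuousOn (uL p q A b0 c0 b1 c1 i) (hh b0 c0 b1 c1 i '' A) := by
    fin_cases i
    · show ContinuousOn uA _
      unfold uA; fun_prop
    · show ContinuousOn (uB p) _
      unfold uB; fun_prop
    · exact H.F0.continuousOn_uC
    · show ContinuousOn (uB q) _
      unfold uB; fun_prop
    · exact H.F1.continuousOn_uC
  have hS : MeasurableSet (hh b0 c0 b1 c1 i '' A) := by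
    refine (hA.image_of_continuousOn ?_).isClosed.measurableSet
    fin_cases i
    · exact continuousOn_id
    · exact H.F0.contb
    · exact H.F0.contc
    · exact H.F1.contb
    · exact H.F1.contc
  rw [← piecewise_eq_indicator]
  exact ContinuousOn.measurable_piecewise
    (ENNReal.continuous_ofReal.comp_continuousOn hcont) continuousOn_const hS

lemma val_le : ∀ i : Fin 5, val i ≤ 200 := by decide

omit [FiniteDimensional ℝ E] [BorelSpace E] in
lemma UU_le (H : Config p q A b0 c0 b1 c1 K0 K1 ρ0 ρ1) (x : E) : UU p q A b0 c0 b1 c1 x ≤ 2 := by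
  by_cases hx : ∃ i, x ∈ hh b0 c0 b1 c1 i '' A
  · obtain ⟨i, hx⟩ := hx
    rw [H.UU_eq hx]
    refine (ENNReal.ofReal_le_ofReal ((H.uL_bounds hx).2.trans ?_)).trans_eq (b := ENNReal.ofReal 2)
      (by simp)
    have : (val i : ℝ) ≤ 200 := by exact_mod_cast val_le i
    linarith
  · push Not at hx
    unfold UU
    rw [Finset.sum_eq_zero]
    · simp
    · intro i _
      exact indicator_of_notMem (hx i) _

omit [FiniteDimensional ℝ E] [BorelSpace E] in
lemma contact_eq0 (H : Config p q A b0 c0 b1 c1 K0 K1 ρ0 ρ1) {a : E} (ha : a ∈ A) :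
    coulombCost a (b0 a) (c0 a) = UU p q A b0 c0 b1 c1 a + UU p q A b0 c0 b1 c1 (b0 a) +
      UU p q A b0 c0 b1 c1 (c0 a) := by
  have e0 : UU p q A b0 c0 b1 c1 a = _ := H.UU_eq (i := 0) ⟨a, ha, rfl⟩
  have e1 : UU p q A b0 c0 b1 c1 (b0 a) = _ := H.UU_eq (i := 1) ⟨a, ha, rfl⟩
  have e2 : UU p q A b0 c0 b1 c1 (c0 a) = _ := H.UU_eq (i := 2) ⟨a, ha, rfl⟩
  rw [H.F0.contact_eq ha, e0, e1, e2]
  rfl

omit [FiniteDimensional ℝ E] [BorelSpace E] in
lemma contact_eq1 (H : Config p q A b0 c0 b1 c1 K0 K1 ρ0 ρ1) {a : E} (ha : a ∈ A) :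
    coulombCost a (b1 a) (c1 a) = UU p q A b0 c0 b1 c1 a + UU p q A b0 c0 b1 c1 (b1 a) +
      UU p q A b0 c0 b1 c1 (c1 a) := by
  have e0 : UU p q A b0 c0 b1 c1 a = _ := H.UU_eq (i := 0) ⟨a, ha, rfl⟩
  have e1 : UU p q A b0 c0 b1 c1 (b1 a) = _ := H.UU_eq (i := 3) ⟨a, ha, rfl⟩
  have e2 : UU p q A b0 c0 b1 c1 (c1 a) = _ := H.UU_eq (i := 4) ⟨a, ha, rfl⟩
  rw [H.F1.contact_eq ha, e0, e1, e2]
  rfl

lemma measurable_cost : Measurable (fun p : E × E × E => coulombCost p.1 p.2.1 p.2.2) := by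
  unfold coulombCost
  fun_prop

lemma lintegral_plan {κ : Measure E} {b c : E → E} (hb : Measurable b) (hc : Measurable c) :
    ∫⁻ p, coulombCost p.1 p.2.1 p.2.2 ∂(plan κ b c) =
      3 * ∫⁻ a, coulombCost a (b a) (c a) ∂κ := by
  unfold plan
  rw [lintegral_add_measure, lintegral_add_measure, lintegral_map measurable_cost (by fun_prop),
    lintegral_map measurable_cost (by fun_prop), lintegral_map measurable_cost (by fun_prop)]
  simp only
  have e1 : ∀ a, coulombCost (c a) a (b a) = coulombCost a (b a) (c a) := fun a => by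
    rw [coulombCost_comm12, coulombCost_comm23]
  have e2 : ∀ a, coulombCost (b a) (c a) a = coulombCost a (b a) (c a) := fun a => by
    rw [coulombCost_comm23, coulombCost_comm12]
  simp only [e1, e2]
  ring

omit [InnerProductSpace ℝ E] [FiniteDimensional ℝ E] [BorelSpace E] in
lemma lintegral_mu {κ : Measure E} {u : E → ℝ≥0∞} (hu : Measurable u) (hb0 : Measurable b0)
    (hc0 : Measurable c0) (hb1 : Measurable b1) (hc1 : Measurable c1) :
    3 * ∫⁻ x, u x ∂(mu κ b0 c0 b1 c1) =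
      6⁻¹ * (3 * ∫⁻ a, (u a + u (b0 a) + u (c0 a)) ∂κ + 3 * ∫⁻ a, (u a + u (b1 a) + u (c1 a)) ∂κ) := by
  have m0 : Measurable fun a => u a + u (b0 a) := hu.add (hu.comp hb0)
  have m1 : Measurable fun a => u a + u (b1 a) := hu.add (hu.comp hb1)
  unfold mu
  rw [lintegral_add_measure, lintegral_smul_measure, lintegral_smul_measure,
    lintegral_add_measure, lintegral_add_measure, lintegral_add_measure, lintegral_map hu hb0,
    lintegral_map hu hc0, lintegral_map hu hb1, lintegral_map hu hc1,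
    lintegral_add_left m0, lintegral_add_left hu, lintegral_add_left m1, lintegral_add_left hu]
  simp only [smul_eq_mul, three_inv]
  ring

lemma measurable_hh (H : Config p q A b0 c0 b1 c1 K0 K1 ρ0 ρ1) (i : Fin 5) :
    Measurable (hh b0 c0 b1 c1 i) := by
  fin_cases i
  · exact measurable_id
  · exact H.F0.measb
  · exact H.F0.measc
  · exact H.F1.measb
  · exact H.F1.measc

lemma mu_apply (H : Config p q A b0 c0 b1 c1 K0 K1 ρ0 ρ1) (κ : Measure E) {s : Set E}
    (hs : MeasurableSet s) :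
    mu κ b0 c0 b1 c1 s = 3⁻¹ * κ (hh b0 c0 b1 c1 0 ⁻¹' s) +
      6⁻¹ * (κ (hh b0 c0 b1 c1 1 ⁻¹' s) + κ (hh b0 c0 b1 c1 2 ⁻¹' s) +
        (κ (hh b0 c0 b1 c1 3 ⁻¹' s) + κ (hh b0 c0 b1 c1 4 ⁻¹' s))) := by
  unfold mu
  simp only [Measure.add_apply, Measure.smul_apply, smul_eq_mul, Measure.map_apply H.F0.measb hs,
    Measure.map_apply H.F0.measc hs, Measure.map_apply H.F1.measb hs,
    Measure.map_apply H.F1.measc hs]
  rfl

/-- A point cannot be reached too often. -/
lemma null_of_map_eq (H : Config p q A b0 c0 b1 c1 K0 K1 ρ0 ρ1) (hA : IsCompact A)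
    (κ : Measure E) [IsProbabilityMeasure κ] (hκ : κ Aᶜ = 0) {T : E → E} (hT : Measurable T)
    (hTmap : (mu κ b0 c0 b1 c1).map T = mu κ b0 c0 b1 c1) {k : Fin 5} (hk : k = 2 ∨ k = 4) :
    κ {a | a ∈ A ∧ T a = hh b0 c0 b1 c1 k a} = 0 := by
  set D : Set E := {a | a ∈ A ∧ T a = hh b0 c0 b1 c1 k a} with hD
  have hDA : D ⊆ A := fun a ha => ha.1
  have hDm : MeasurableSet D :=
    hA.isClosed.measurableSet.inter (measurableSet_eq_fun hT (H.measurable_hh k))
  have hcont : ContinuousOn (hh b0 c0 b1 c1 k) A := by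
    rcases hk with rfl | rfl
    · exact H.F0.contc
    · exact H.F1.contc
  have hinj : InjOn (hh b0 c0 b1 c1 k) A := by
    rcases hk with rfl | rfl
    · exact H.F0.injOn_c
    · exact H.F1.injOn_c
  have him : MeasurableSet (hh b0 c0 b1 c1 k '' D) :=
    hDm.image_of_continuousOn_injOn (hcont.mono hDA) (hinj.mono hDA)
  have hne : ∀ i, i ≠ k → κ (hh b0 c0 b1 c1 i ⁻¹' (hh b0 c0 b1 c1 k '' D)) = 0 := by
    intro i hik
    refine measure_mono_null (fun a ha => ?_) hκ
    intro haA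
    exact hik (H.disj (mem_image_of_mem _ haA) (image_mono hDA ha))
  have heq : κ (hh b0 c0 b1 c1 k ⁻¹' (hh b0 c0 b1 c1 k '' D)) ≤ κ D := by
    have : hh b0 c0 b1 c1 k ⁻¹' (hh b0 c0 b1 c1 k '' D) ⊆ D ∪ Aᶜ := by
      rintro a ⟨a', ha', he⟩
      by_cases haA : a ∈ A
      · left
        rw [← hinj (hDA ha') haA he]
        exact ha'
      · right; exact haA
    calc _ ≤ κ (D ∪ Aᶜ) := measure_mono this
      _ ≤ κ D + κ Aᶜ := measure_union_le _ _
      _ = κ D := by rw [hκ, add_zero]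
  have hup : mu κ b0 c0 b1 c1 (hh b0 c0 b1 c1 k '' D) ≤ 6⁻¹ * κ D := by
    rw [H.mu_apply κ him]
    rcases hk with rfl | rfl
    · rw [hne 0 (by decide), hne 1 (by decide), hne 3 (by decide), hne 4 (by decide)]
      simp only [mul_zero, zero_add, add_zero]
      gcongr
    · rw [hne 0 (by decide), hne 1 (by decide), hne 2 (by decide), hne 3 (by decide)]
      simp only [mul_zero, zero_add]
      gcongr
  have hlow : 3⁻¹ * κ D ≤ mu κ b0 c0 b1 c1 (hh b0 c0 b1 c1 k '' D) := by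
    rw [← hTmap, Measure.map_apply hT him, H.mu_apply κ (hT him)]
    have : κ D ≤ κ (hh b0 c0 b1 c1 0 ⁻¹' (T ⁻¹' (hh b0 c0 b1 c1 k '' D))) := by
      refine measure_mono fun a ha => ?_
      show T a ∈ hh b0 c0 b1 c1 k '' D
      rw [ha.2]
      exact mem_image_of_mem _ ha
    calc 3⁻¹ * κ D ≤ 3⁻¹ * κ (hh b0 c0 b1 c1 0 ⁻¹' (T ⁻¹' (hh b0 c0 b1 c1 k '' D))) := by gcongr
      _ ≤ _ := le_self_add
  have hle := hlow.trans hup
  rw [three_inv, add_mul] at hle
  have hfin : 6⁻¹ * κ D ≠ ∞ := ENNReal.mul_ne_top (by simp) (measure_ne_top κ D)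
  have h0 : 6⁻¹ * κ D = 0 := by
    by_contra hne0
    exact absurd hle (not_le.2 (ENNReal.lt_add_right hfin hne0))
  rcases mul_eq_zero.1 h0 with h | h
  · simp at h
  · exact h

lemma value_le (H : Config p q A b0 c0 b1 c1 K0 K1 ρ0 ρ1) (hA : IsCompact A)
    (κ : Measure E) (hκ : κ Aᶜ = 0) :
    kantorovichValue (mu κ b0 c0 b1 c1) ≤
      3 * ∫⁻ x, UU p q A b0 c0 b1 c1 x ∂(mu κ b0 c0 b1 c1) := by
  have hum : Measurable (UU p q A b0 c0 b1 c1) := H.measurable_UU hA
  have hκae : ∀ᵐ a ∂κ, a ∈ A := hκ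
  have h0 : ∫⁻ a, coulombCost a (b0 a) (c0 a) ∂κ = ∫⁻ a, (UU p q A b0 c0 b1 c1 a +
      UU p q A b0 c0 b1 c1 (b0 a) + UU p q A b0 c0 b1 c1 (c0 a)) ∂κ :=
    lintegral_congr_ae (hκae.mono fun a ha => H.contact_eq0 ha)
  have h1 : ∫⁻ a, coulombCost a (b1 a) (c1 a) ∂κ = ∫⁻ a, (UU p q A b0 c0 b1 c1 a +
      UU p q A b0 c0 b1 c1 (b1 a) + UU p q A b0 c0 b1 c1 (c1 a)) ∂κ :=
    lintegral_congr_ae (hκae.mono fun a ha => H.contact_eq1 ha)
  refine (iInf₂_le _ (isCoupling_plan H.F0.measb H.F0.measc H.F1.measb H.F1.measc)).trans_eq ?_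
  rw [lintegral_smul_measure, lintegral_add_measure, lintegral_plan H.F0.measb H.F0.measc,
    lintegral_plan H.F1.measb H.F1.measc,
    lintegral_mu hum H.F0.measb H.F0.measc H.F1.measb H.F1.measc, smul_eq_mul, h0, h1]

lemma lintegral_UU_lt (H : Config p q A b0 c0 b1 c1 K0 K1 ρ0 ρ1) (κ : Measure E)
    [IsProbabilityMeasure κ] :
    3 * ∫⁻ x, UU p q A b0 c0 b1 c1 x ∂(mu κ b0 c0 b1 c1) < ∞ := by
  have hprob : IsProbabilityMeasure (mu κ b0 c0 b1 c1) :=
    isProbabilityMeasure_mu H.F0.measb H.F0.measc H.F1.measb H.F1.measc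
  have hufin : ∫⁻ x, UU p q A b0 c0 b1 c1 x ∂(mu κ b0 c0 b1 c1) ≤ 2 := by
    calc ∫⁻ x, UU p q A b0 c0 b1 c1 x ∂(mu κ b0 c0 b1 c1)
        ≤ ∫⁻ _, 2 ∂(mu κ b0 c0 b1 c1) := lintegral_mono H.UU_le
      _ = 2 := by simp
  exact ENNReal.mul_lt_top (by simp) (hufin.trans_lt (by simp))

lemma ae_support (H : Config p q A b0 c0 b1 c1 K0 K1 ρ0 ρ1) (hA : IsCompact A) (κ : Measure E)
    (hκ : κ Aᶜ = 0) :
    ∀ᵐ x ∂(mu κ b0 c0 b1 c1), ∃ i, x ∈ hh b0 c0 b1 c1 i '' A := by
  have hmeas : MeasurableSet {x | ∃ i, x ∈ hh b0 c0 b1 c1 i '' A} := by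
    have : {x | ∃ i, x ∈ hh b0 c0 b1 c1 i '' A} = ⋃ i, hh b0 c0 b1 c1 i '' A := by
      ext x; simp
    rw [this]
    refine MeasurableSet.iUnion fun i => ?_
    refine (hA.image_of_continuousOn ?_).isClosed.measurableSet
    fin_cases i
    · exact continuousOn_id
    · exact H.F0.contb
    · exact H.F0.contc
    · exact H.F1.contb
    · exact H.F1.contc
  rw [ae_iff]
  have hc : {x | ¬ ∃ i, x ∈ hh b0 c0 b1 c1 i '' A} = {x | ∃ i, x ∈ hh b0 c0 b1 c1 i '' A}ᶜ := rfl
  rw [hc, H.mu_apply κ hmeas.compl]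
  have hz : ∀ i, κ (hh b0 c0 b1 c1 i ⁻¹' {x | ∃ i, x ∈ hh b0 c0 b1 c1 i '' A}ᶜ) = 0 := by
    intro i
    refine measure_mono_null (fun a ha => ?_) hκ
    intro haA
    exact ha ⟨i, mem_image_of_mem _ haA⟩
  rw [hz 0, hz 1, hz 2, hz 3, hz 4]
  simp

lemma ae_of_map_eq {μ : Measure E} {S : E → E} (hS : Measurable S) (hSmap : μ.map S = μ)
    {P : E → Prop} (h : ∀ᵐ x ∂μ, P x) : ∀ᵐ x ∂μ, P (S x) := by
  have h' : ∀ᵐ x ∂(μ.map S), P x := by rw [hSmap]; exact h
  exact ae_of_ae_map hS.aemeasurable h'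

lemma ae_le_of_optimal {μ : Measure E} {u : E → ℝ≥0∞} (hum : Measurable u) {S T : E → E}
    (hS : Measurable S) (hT : Measurable T) (hSmap : μ.map S = μ) (hTmap : μ.map T = μ)
    (hfin : 3 * ∫⁻ x, u x ∂μ < ∞)
    (hle : ∀ᵐ x ∂μ, u x + u (S x) + u (T x) ≤ coulombCost x (S x) (T x))
    (hcost : ∫⁻ x, coulombCost x (S x) (T x) ∂μ ≤ 3 * ∫⁻ x, u x ∂μ) :
    ∀ᵐ x ∂μ, coulombCost x (S x) (T x) ≤ u x + u (S x) + u (T x) := by
  have hcm : Measurable fun x => coulombCost x (S x) (T x) := by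
    unfold coulombCost
    fun_prop
  have m0 : Measurable fun x => u x + u (S x) := hum.add (hum.comp hS)
  have e1 : ∫⁻ x, u (S x) ∂μ = ∫⁻ x, u x ∂μ := by
    rw [← lintegral_map hum hS, hSmap]
  have e2 : ∫⁻ x, u (T x) ∂μ = ∫⁻ x, u x ∂μ := by
    rw [← lintegral_map hum hT, hTmap]
  have hint : ∫⁻ x, (u x + u (S x) + u (T x)) ∂μ = 3 * ∫⁻ x, u x ∂μ := by
    rw [lintegral_add_left m0, lintegral_add_left hum, e1, e2]
    ring
  have heq := ae_eq_of_ae_le_of_lintegral_le hle (by rw [hint]; exact hfin.ne) hcm.aemeasurable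
    (by rw [hint]; exact hcost)
  exact heq.symm.le

lemma ae_eq_of_optimal (H : Config p q A b0 c0 b1 c1 K0 K1 ρ0 ρ1) (hA : IsCompact A)
    (κ : Measure E) [IsProbabilityMeasure κ] (hκ : κ Aᶜ = 0) {S T : E → E} (hS : Measurable S)
    (hT : Measurable T) (hSmap : (mu κ b0 c0 b1 c1).map S = mu κ b0 c0 b1 c1)
    (hTmap : (mu κ b0 c0 b1 c1).map T = mu κ b0 c0 b1 c1)
    (hcost : ∫⁻ x, coulombCost x (S x) (T x) ∂(mu κ b0 c0 b1 c1) ≤
      3 * ∫⁻ x, UU p q A b0 c0 b1 c1 x ∂(mu κ b0 c0 b1 c1)) :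
    ∀ᵐ x ∂(mu κ b0 c0 b1 c1), coulombCost x (S x) (T x) ≤
      UU p q A b0 c0 b1 c1 x + UU p q A b0 c0 b1 c1 (S x) + UU p q A b0 c0 b1 c1 (T x) := by
  have hsupp := H.ae_support hA κ hκ
  refine ae_le_of_optimal (H.measurable_UU hA) hS hT hSmap hTmap (H.lintegral_UU_lt κ) ?_ hcost
  filter_upwards [hsupp, ae_of_map_eq hS hSmap hsupp, ae_of_map_eq hT hTmap hsupp]
    with x ⟨i, hi⟩ ⟨j, hj⟩ ⟨k, hk⟩
  exact H.key hi hj hk

/-- There is no optimal Monge pair. -/
theorem no_monge (H : Config p q A b0 c0 b1 c1 K0 K1 ρ0 ρ1) (hA : IsCompact A)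
    (κ : Measure E) [IsProbabilityMeasure κ] (hκ : κ Aᶜ = 0) (S T : E → E) :
    ¬ IsOptimalMongePair (mu κ b0 c0 b1 c1) S T := by
  rintro ⟨hS, hT, hSmap, hTmap, hcost⟩
  have heq := H.ae_eq_of_optimal hA κ hκ hS hT hSmap hTmap
    (hcost.trans_le (H.value_le hA κ hκ))
  have hsupp := H.ae_support hA κ hκ
  have n1 := H.null_of_map_eq hA κ hκ hS hSmap (k := 2) (Or.inl rfl)
  have n2 := H.null_of_map_eq hA κ hκ hS hSmap (k := 4) (Or.inr rfl)
  have n3 := H.null_of_map_eq hA κ hκ hT hTmap (k := 2) (Or.inl rfl)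
  have n4 := H.null_of_map_eq hA κ hκ hT hTmap (k := 4) (Or.inr rfl)
  have hκae : ∀ᵐ a ∂κ, a ∈ A := hκ
  have hac : κ ≪ mu κ b0 c0 b1 c1 := by
    refine Measure.AbsolutelyContinuous.mk fun s hs h0 => ?_
    rw [H.mu_apply κ hs] at h0
    have h1 := (add_eq_zero.1 h0).1
    rcases mul_eq_zero.1 h1 with h | h
    · simp at h
    · exact h
  have hsuppS := ae_of_map_eq hS hSmap hsupp
  have hsuppT := ae_of_map_eq hT hTmap hsupp
  have hfinal : ∀ᵐ a ∂κ, S a = c0 a ∨ S a = c1 a ∨ T a = c0 a ∨ T a = c1 a := by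
    filter_upwards [hκae, hac.ae_le hsuppS, hac.ae_le hsuppT, hac.ae_le heq] with a ha ⟨j, hj⟩ ⟨k, hk⟩ he
    exact H.key_eq ha hj hk he
  have a1 : ∀ᵐ a ∂κ, ¬ (a ∈ A ∧ S a = c0 a) := by rw [ae_iff]; simpa [hh] using n1
  have a2 : ∀ᵐ a ∂κ, ¬ (a ∈ A ∧ S a = c1 a) := by rw [ae_iff]; simpa [hh] using n2
  have a3 : ∀ᵐ a ∂κ, ¬ (a ∈ A ∧ T a = c0 a) := by rw [ae_iff]; simpa [hh] using n3
  have a4 : ∀ᵐ a ∂κ, ¬ (a ∈ A ∧ T a = c1 a) := by rw [ae_iff]; simpa [hh] using n4
  have hfalse : ∀ᵐ a ∂κ, False := by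
    filter_upwards [hκae, hfinal, a1, a2, a3, a4] with a ha h b1 b2 b3 b4
    tauto
  rw [ae_iff] at hfalse
  simp at hfalse

end Config

end

end Vale.Agent.P121
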