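import Vale.Agent.Lib.P121.Clusters

/-!
# The dual potential
-/

namespace Vale.Agent.P121

open MeasureTheory Set Metric
open scoped ENNReal NNReal RealInnerProductSpace

variable {E : Type*} [NormedAddCommGroup E] [InnerProductSpace ℝ E] [MeasurableSpace E]

/-- the data of one family of contact triples `(a, b a, c a)`, `a ∈ A` -/
structure Family (p : E) (A : Set E) (b c : E → E) (K : ℝ≥0) (ρ : ℝ) : Prop where
  normp : ‖p‖ = 1
  small : ρ ≤ 1 / 1000
  nearA : ∀ a ∈ A, dist a 0 < ρ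
  measb : Measurable b
  measc : Measurable c
  contb : ContinuousOn b A
  contc : ContinuousOn c A
  nearb : ∀ a ∈ A, dist (b a) p < ρ
  nearc : ∀ a ∈ A, dist (c a) (-p) < ρ
  antib : ∀ a ∈ A, ∀ a' ∈ A, dist a a' ≤ K * dist (b a) (b a')
  antic : ∀ a ∈ A, ∀ a' ∈ A, dist a a' ≤ K * dist (c a) (c a')
  minim : ∀ a ∈ A, ∀ a' b', dist a' 0 < ρ → dist b' p < ρ →
        (a' = a ∧ b' = b a) ∨ ff p (a, b a) (c a) < ff p (a', b') (c a)

/-- the potential of the third particle -/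
noncomputable def uC (p : E) (A : Set E) (b c : E → E) (x : E) : ℝ :=
  ff p (Function.invFunOn c A x, b (Function.invFunOn c A x)) x

omit [InnerProductSpace ℝ E] [MeasurableSpace E] in
lemma uA_bounds {a : E} (h : dist a 0 < 1 / 1000) : 149 / 100 ≤ uA a ∧ uA a ≤ 150 / 100 := by
  rw [dist_zero_right] at h
  unfold uA
  have := norm_nonneg a
  constructor <;> nlinarith

omit [MeasurableSpace E] in
lemma uB_bounds {p b : E} (hp : ‖p‖ = 1) (h : dist b p < 1 / 1000) :
    498 / 1000 ≤ uB p b ∧ uB p b ≤ 51 / 100 := by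
  rw [dist_eq_norm] at h
  unfold uB
  have h1 := abs_real_inner_le_norm p (b - p)
  rw [hp, one_mul] at h1
  have h2 := abs_le.1 h1
  have := norm_nonneg (b - p)
  constructor <;> nlinarith [h2.1, h2.2]

namespace Family

variable {p : E} {A : Set E} {b c : E → E} {K : ℝ≥0} {ρ : ℝ}

lemma injOn_c (F : Family p A b c K ρ) : InjOn c A := by
  intro a ha a' ha' h
  have := F.antic a ha a' ha'
  rw [h, dist_self, mul_zero] at this
  exact dist_le_zero.1 this

lemma injOn_b (F : Family p A b c K ρ) : InjOn b A := by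
  intro a ha a' ha' h
  have := F.antib a ha a' ha'
  rw [h, dist_self, mul_zero] at this
  exact dist_le_zero.1 this

lemma inv_c (F : Family p A b c K ρ) {a : E} (ha : a ∈ A) : Function.invFunOn c A (c a) = a :=
  F.injOn_c.leftInvOn_invFunOn ha

lemma uC_eq (F : Family p A b c K ρ) {a : E} (ha : a ∈ A) :
    uC p A b c (c a) = ff p (a, b a) (c a) := by
  unfold uC; rw [F.inv_c ha]

lemma distances (F : Family p A b c K ρ) {a b' c' : E} (ha : dist a 0 < ρ) (hb : dist b' p < ρ)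
    (hc : dist c' (-p) < ρ) :
    998 / 1000 ≤ ‖a - b'‖ ∧ 998 / 1000 ≤ ‖a - c'‖ ∧ 1998 / 1000 ≤ ‖b' - c'‖ := by
  have hs := F.small
  have hp := F.normp
  rw [dist_eq_norm] at ha hb hc
  rw [sub_zero] at ha
  refine ⟨?_, ?_, ?_⟩
  · have : p = -(a - b') + a - (b' - p) := by abel
    have h2 : ‖p‖ ≤ ‖a - b'‖ + ‖a‖ + ‖b' - p‖ := by
      nth_rewrite 1 [this]
      refine (norm_sub_le _ _).trans ?_
      gcongr
      refine (norm_add_le _ _).trans ?_
      rw [norm_neg]
    linarith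
  · have : p = (a - c') - a + (c' - -p) := by abel
    have h2 : ‖p‖ ≤ ‖a - c'‖ + ‖a‖ + ‖c' - -p‖ := by
      nth_rewrite 1 [this]
      refine (norm_add_le _ _).trans ?_
      gcongr
      exact (norm_sub_le _ _)
    linarith
  · have : (2 : ℝ) • p = (b' - c') - (b' - p) + (c' - -p) := by rw [two_smul]; abel
    have h2 : ‖(2 : ℝ) • p‖ ≤ ‖b' - c'‖ + ‖b' - p‖ + ‖c' - -p‖ := by
      rw [this]
      refine (norm_add_le _ _).trans ?_
      gcongr
      exact (norm_sub_le _ _)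
    rw [norm_smul, hp, Real.norm_ofNat, mul_one] at h2
    linarith

lemma distances_upper (F : Family p A b c K ρ) {a b' c' : E} (ha : dist a 0 < ρ)
    (hb : dist b' p < ρ) (hc : dist c' (-p) < ρ) :
    ‖a - b'‖ ≤ 1002 / 1000 ∧ ‖a - c'‖ ≤ 1002 / 1000 ∧ ‖b' - c'‖ ≤ 2002 / 1000 := by
  have hs := F.small
  have hp := F.normp
  rw [dist_eq_norm] at ha hb hc
  rw [sub_zero] at ha
  refine ⟨?_, ?_, ?_⟩
  · have : a - b' = a - (b' - p) - p := by abel
    have h2 : ‖a - b'‖ ≤ ‖a‖ + ‖b' - p‖ + ‖p‖ := by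
      rw [this]
      exact (norm_sub_le _ _).trans (by gcongr; exact norm_sub_le _ _)
    linarith
  · have : a - c' = a - (c' - -p) + p := by abel
    have h2 : ‖a - c'‖ ≤ ‖a‖ + ‖c' - -p‖ + ‖p‖ := by
      rw [this]
      exact (norm_add_le _ _).trans (by gcongr; exact norm_sub_le _ _)
    linarith
  · have : b' - c' = (b' - p) - (c' - -p) + (2 : ℝ) • p := by rw [two_smul]; abel
    have h2 : ‖b' - c'‖ ≤ ‖b' - p‖ + ‖c' - -p‖ + ‖(2 : ℝ) • p‖ := by
      rw [this]
      exact (norm_add_le _ _).trans (by gcongr; exact norm_sub_le _ _)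
    rw [norm_smul, hp, Real.norm_ofNat, mul_one] at h2
    linarith

lemma uC_bounds (F : Family p A b c K ρ) {a : E} (ha : a ∈ A) :
    0 ≤ uC p A b c (c a) ∧ uC p A b c (c a) ≤ 51 / 100 := by
  rw [F.uC_eq ha]
  obtain ⟨h1, h2, h3⟩ := F.distances (F.nearA a ha) (F.nearb a ha) (F.nearc a ha)
  obtain ⟨g1, g2, g3⟩ := F.distances_upper (F.nearA a ha) (F.nearb a ha) (F.nearc a ha)
  have hA := uA_bounds ((F.nearA a ha).trans_le F.small)
  have hB := uB_bounds F.normp ((F.nearb a ha).trans_le F.small)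
  have hA' : uA a ≥ 3 / 2 - 2 * (1 / 1000) ^ 2 := by
    have := (F.nearA a ha).trans_le F.small
    rw [dist_zero_right] at this
    unfold uA
    have := norm_nonneg a
    nlinarith
  have i1 : ‖a - b a‖⁻¹ ≤ (998 / 1000)⁻¹ := inv_anti₀ (by norm_num) h1
  have i2 : ‖a - c a‖⁻¹ ≤ (998 / 1000)⁻¹ := inv_anti₀ (by norm_num) h2
  have i3 : ‖b a - c a‖⁻¹ ≤ (1998 / 1000)⁻¹ := inv_anti₀ (by norm_num) h3
  have j1 : (1002 / 1000)⁻¹ ≤ ‖a - b a‖⁻¹ := inv_anti₀ (by linarith) g1
  have j2 : (1002 / 1000)⁻¹ ≤ ‖a - c a‖⁻¹ := inv_anti₀ (by linarith) g2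
  have j3 : (2002 / 1000)⁻¹ ≤ ‖b a - c a‖⁻¹ := inv_anti₀ (by linarith) g3
  unfold ff
  simp only
  constructor
  · norm_num at j1 j2 j3
    linarith [hA.2, hB.2]
  · norm_num at i1 i2 i3
    linarith [hB.1]

/-- The contact inequality. -/
lemma contact_le (F : Family p A b c K ρ) {x y z : E} (hx : x ∈ A) (hy : y ∈ b '' A)
    (hz : z ∈ c '' A) :
    ENNReal.ofReal (uA x) + ENNReal.ofReal (uB p y) + ENNReal.ofReal (uC p A b c z) ≤
      coulombCost x y z ∧
    (coulombCost x y z ≤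
      ENNReal.ofReal (uA x) + ENNReal.ofReal (uB p y) + ENNReal.ofReal (uC p A b c z) →
      y = b x ∧ z = c x) := by
  obtain ⟨a, ha, rfl⟩ := hz
  obtain ⟨a', ha', rfl⟩ := hy
  have hx' := F.nearA x hx
  have hy' := F.nearb a' ha'
  have hz' := F.nearc a ha
  obtain ⟨h1, h2, h3⟩ := F.distances hx' hy' hz'
  have hA := uA_bounds (hx'.trans_le F.small)
  have hB := uB_bounds F.normp (hy'.trans_le F.small)
  have hC := F.uC_bounds ha
  have n1 : x ≠ b a' := fun h => by rw [h, sub_self, norm_zero] at h1; norm_num at h1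
  have n2 : x ≠ c a := fun h => by rw [h, sub_self, norm_zero] at h2; norm_num at h2
  have n3 : b a' ≠ c a := fun h => by rw [h, sub_self, norm_zero] at h3; norm_num at h3
  rw [coulombCost_eq n1 n2 n3, ← ENNReal.ofReal_add (by linarith [hA.1]) (by linarith [hB.1]),
    ← ENNReal.ofReal_add (by linarith [hA.1, hB.1]) hC.1]
  have hmin := F.minim a ha x (b a') hx' hy'
  rw [← F.uC_eq ha] at hmin
  have e : ff p (x, b a') (c a) =
      ‖x - b a'‖⁻¹ + ‖x - c a‖⁻¹ + ‖b a' - c a‖⁻¹ - uA x - uB p (b a') := rfl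
  rw [e] at hmin
  constructor
  · apply ENNReal.ofReal_le_ofReal
    rcases hmin with h | h
    · obtain ⟨h4, h5⟩ := h
      subst h4
      rw [h5, F.uC_eq ha]
      unfold ff
      simp only
      linarith
    · linarith
  · intro hle
    rw [ENNReal.ofReal_le_ofReal_iff (by linarith [hA.1, hB.1, hC.1])] at hle
    rcases hmin with h | h
    · obtain ⟨h4, h5⟩ := h
      subst h4
      exact ⟨h5, rfl⟩
    · linarith

end Family

end Vale.Agent.P121
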